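import Vale.Agent.P092A2.Zmt
import Vale.Agent.P092AG.Basic

/-! Consequences of absolute simplicity. -/

set_option linter.all false

open Set Matrix Filter Topology
open scoped Matrix.Norms.Elementwise

noncomputable section

namespace Vale.Agent.P092A2

open Vale.Agent.P092AG

section Alg

variable {n : ℕ} {R : Type} [Field R] {S S' : Set (GL (Fin n) R)} {g : GL (Fin n) R}

/-- Zariski closure -/
def zcl (S : Set (GL (Fin n) R)) : Set (GL (Fin n) R) := {g | ∀ p ∈ van S, ev (g : Mt n R) p = 0}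

theorem subset_zcl : S ⊆ zcl S := fun g hg _ hp => hp g hg

theorem van_anti (h : S ⊆ S') : van S' ≤ van S := fun _ hp g hg => hp g (h hg)

theorem van_zcl : van (zcl S) = van S :=
  le_antisymm (van_anti subset_zcl) fun p hp _ hg => hg p hp

theorem zcl_closed : ZCl (zcl S) := fun _ h p hp => h p (van_zcl.ge hp)

theorem zcl_subset (h : ZCl S') (hS : S ⊆ S') : zcl S ⊆ S' :=
  fun g hg => h g fun p hp => hg p (van_anti hS hp)

theorem zero_zcl {F : Mt n R → R} (hF : PF F) (h : ∀ s ∈ S, F (s : GL (Fin n) R) = 0)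
    (hg : g ∈ zcl S) : F g = 0 :=
  let ⟨p, hp⟩ := hF
  (hp _).trans (hg p fun s hs => (hp _).symm.trans (h s hs))

theorem eq_zcl {ι κ : Type*} {A B : Mt n R → Matrix ι κ R} (hA : ∀ i j, PF fun x => A x i j)
    (hB : ∀ i j, PF fun x => B x i j) (h : ∀ s ∈ S, A (s : GL (Fin n) R) = B s) (hg : g ∈ zcl S) :
    A g = B g := Matrix.ext fun i j => sub_eq_zero.1 (zero_zcl ((hA i j).sub (hB i j))
      (fun s hs => by rw [h s hs, sub_self]) hg)

theorem map_zcl {T : Mt n R → Mt n R} (hT : ∀ i j, PF fun x => T x i j)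
    (h : ∀ s ∈ S, ∃ t ∈ zcl S', T (s : GL (Fin n) R) = t) (hg : g ∈ zcl S) {g' : GL (Fin n) R}
    (e : T g = g') : g' ∈ zcl S' := fun p hp => e ▸ zero_zcl ((PF.of p).comp hT)
  (fun s hs => let ⟨t, ht, e⟩ := h s hs; e ▸ ht p hp) hg

theorem adj_eq (h : (g : Mt n R).det = 1) : adjugate (g : Mt n R) = (g⁻¹ : GL (Fin n) R) := by
  rw [Matrix.coe_units_inv, Matrix.inv_def, h, Ring.inverse_one, one_smul]

theorem det_zcl (h : ∀ s ∈ S, (s : Mt n R).det = 1) (hg : g ∈ zcl S) : (g : Mt n R).det = 1 :=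
  sub_eq_zero.1 (zero_zcl ((PF.det PF.entry).sub (PF.const 1)) (fun s hs => sub_eq_zero.2 (h s hs)) hg)

theorem pf_c (a : Mt n R) (i j : Fin n) : PF fun _ : Mt n R => a i j := PF.const _

/-- the Zariski closure of a group of matrices of determinant one -/
def zgrp (N : Subgroup (GL (Fin n) R)) (hd : ∀ g ∈ N, (g : Mt n R).det = 1) :
    Subgroup (GL (Fin n) R) where
  carrier := zcl N
  one_mem' := subset_zcl N.one_mem
  mul_mem' := fun {a b} ha hb => map_zcl (PF.mulE PF.entry (pf_c b)) (fun s hs => ⟨s * b,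
    map_zcl (PF.mulE (pf_c s) PF.entry) (fun t ht => ⟨s * t, subset_zcl (N.mul_mem hs ht), rfl⟩)
      hb rfl, rfl⟩) ha rfl
  inv_mem' := fun {a} ha => map_zcl PF.adj
    (fun s hs => ⟨s⁻¹, subset_zcl (N.inv_mem hs), adj_eq (hd s hs)⟩) ha (adj_eq (det_zcl hd ha))

/-- an irreducible set is not a finite union of proper closed subsets -/
theorem irred {ι : Type*} (h : (van S).IsPrime) {F : Set ι} (hF : F.Finite)
    {T : ι → Set (GL (Fin n) R)} (hT : ∀ g ∈ S, ∃ c ∈ F, g ∈ T c) : ∃ c ∈ F, S ⊆ zcl (T c) := by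
  by_contra hn
  have h1 : ∀ c, ∃ p, c ∈ F → p ∈ van (T c) ∧ p ∉ van S := fun c => by
    by_contra h2
    push Not at h2
    exact hn ⟨c, (h2 0).1, fun g hg p hp => (h2 p).2 hp g hg⟩
  choose p hp using h1
  have h4 : ∏ c ∈ hF.toFinset, p c ∈ van S := fun g hg => by
    obtain ⟨c, h2, h3⟩ := hT g hg
    rw [map_prod]
    exact Finset.prod_eq_zero (hF.mem_toFinset.2 h2) ((hp c h2).1 g h3)
  obtain ⟨c, h2, h3⟩ := Ideal.IsPrime.prod_mem_iff.1 h4
  exact (hp c (hF.mem_toFinset.1 h2)).2 h3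

/-- a connected group with finitely many commutators is commutative -/
theorem comm_of_finite {G : Subgroup (GL (Fin n) R)} (h : (van (G : Set (GL (Fin n) R))).IsPrime)
    {F : Set (GL (Fin n) R)} (hF : F.Finite) {a : GL (Fin n) R}
    (hc : ∀ g ∈ G, g * a * g⁻¹ * a⁻¹ ∈ F) (hg : g ∈ G) : g * a = a * g := by
  obtain ⟨c, -, h1⟩ := irred h hF (T := fun c => {g | g * a = c * a * g})
    fun g hg => ⟨_, hc g hg, by simp⟩
  have h2 : ∀ g ∈ G, g * a = c * a * g := fun g hg => Units.ext (eq_zcl (PF.mulE PF.entry (pf_c a))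
    (PF.mulE (pf_c (c * a : GL (Fin n) R)) PF.entry) (fun s hs => congrArg Units.val hs) (h1 hg))
  rw [h2 g hg, show c = 1 by simpa using h2 1 G.one_mem, one_mul]

variable {k : Type} [Field k] [Algebra k R] {𝔾 : Subgroup (GL (Fin n) R)}

theorem abs_det (h : AbsSimple k 𝔾) : ∀ g ∈ 𝔾, (g : Mt n R).det = 1 := by
  have e : ∀ g : GL (Fin n) R, g ∈ (GeneralLinearGroup.det : GL (Fin n) R →* Rˣ).ker ↔
    (g : Mt n R).det = 1 := fun g => Units.ext_iff
  rcases h.simple (𝔾 ⊓ GeneralLinearGroup.det.ker) inf_le_left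
    (fun g hg => ⟨zcl_subset h.closed inter_subset_left hg,
      (e g).2 (det_zcl (fun s hs => (e s).1 hs.2) hg)⟩)
    (fun g hg x hx => ⟨𝔾.mul_mem (𝔾.mul_mem hg hx.1) (𝔾.inv_mem hg),
      (MonoidHom.normal_ker _).conj_mem x hx.2 g⟩) with h1 | h1
  · exact fun g hg => (e g).1 (h1.ge hg).2
  · obtain ⟨a, ha, b, hb, h2⟩ := h.ncomm
    exact (h2 (comm_of_finite h.conn h1 (fun g hg => ⟨𝔾.mul_mem (𝔾.mul_mem (𝔾.mul_mem hg hb)
      (𝔾.inv_mem hg)) (𝔾.inv_mem hb), by simp [MonoidHom.mem_ker]⟩) ha)).elim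

/-- extension of scalars -/
abbrev io (k R : Type) [Field k] [Field R] [Algebra k R] (n : ℕ) : GL (Fin n) k →* GL (Fin n) R :=
  GeneralLinearGroup.map (algebraMap k R)

theorem io_val (g : GL (Fin n) k) : (io k R n g : Mt n R) = (g : Mt n k).map (algebraMap k R) := rfl

theorem io_inj : Function.Injective (io k R n) := fun _ _ e =>
  Units.ext (Matrix.map_injective (algebraMap k R).injective (congrArg Units.val e))

theorem ev_map (x : Mt n k) (p : Pl n k) :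
    ev (x.map (algebraMap k R)) (MvPolynomial.map (algebraMap k R) p) = algebraMap k R (ev x p) :=
  (MvPolynomial.map_eval (algebraMap k R) _ p).symm

theorem pts_det (h : AbsSimple k 𝔾) : ∀ g ∈ pts k 𝔾, (g : Mt n k).det = 1 := fun g hg =>
  (algebraMap k R).injective (by rw [RingHom.map_det, map_one]; exact abs_det h _ hg)

theorem pts_ncomm (h : AbsSimple k 𝔾) (hd : (𝔾 : Set (GL (Fin n) R)) ⊆ zcl (io k R n '' pts k 𝔾)) :
    ∃ g ∈ pts k 𝔾, ∃ g' ∈ pts k 𝔾, g * g' ≠ g' * g := by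
  by_contra hn
  push Not at hn
  obtain ⟨a, ha, b, hb, h2⟩ := h.ncomm
  refine h2 (Units.ext (eq_zcl (PF.mulE PF.entry (pf_c b)) (PF.mulE (pf_c b) PF.entry) ?_ (hd ha)))
  rintro _ ⟨s, hs, rfl⟩
  refine eq_zcl (PF.mulE (pf_c _) PF.entry) (PF.mulE PF.entry (pf_c _)) ?_ (hd hb)
  rintro _ ⟨t, ht, rfl⟩
  rw [← Units.val_mul, ← Units.val_mul, ← map_mul, ← map_mul, hn s hs t ht]

/-- a subgroup normalised by a dense set is finite or dense -/
theorem finite_or_dense (h : AbsSimple k 𝔾) {N : Subgroup (GL (Fin n) R)} (hN : N ≤ 𝔾)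
    (hS : (𝔾 : Set (GL (Fin n) R)) ⊆ zcl S) (hS' : S ⊆ 𝔾) (hc : ∀ g ∈ S, ∀ x ∈ N, g * x * g⁻¹ ∈ N) :
    (N : Set (GL (Fin n) R)).Finite ∨ (𝔾 : Set (GL (Fin n) R)) ⊆ zcl N := by
  refine (h.simple (zgrp N fun g hg => abs_det h g (hN hg)) (zcl_subset h.closed hN) zcl_closed
    fun g hg x hx => ?_).symm.imp (·.subset subset_zcl) fun e => e.ge
  refine map_zcl (PF.mulE (PF.mulE PF.entry (pf_c x)) PF.adj) (fun s hs => ⟨s * x * s⁻¹,
    map_zcl (PF.mulE (PF.mulE (pf_c s) PF.entry) (pf_c (s⁻¹ : GL (Fin n) R)))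
      (fun t ht => ⟨_, subset_zcl (hc s hs t ht), rfl⟩) hx rfl, ?_⟩) (hS hg) ?_
  · rw [adj_eq (abs_det h s (hS' hs))]; rfl
  · rw [adj_eq (abs_det h g hg)]; rfl

/-- a polynomial representation of the points extends -/
theorem exists_ext (hd : (𝔾 : Set (GL (Fin n) R)) ⊆ zcl (io k R n '' pts k 𝔾)) {m : Type}
    [Fintype m] [DecidableEq m] (ρ : pts k 𝔾 →* Matrix m m R) {T : Mt n R → Matrix m m R}
    (hT : ∀ i j, PF fun x => T x i j) (e : ∀ g : pts k 𝔾, ρ g = T (io k R n g)) :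
    ∃ σ : 𝔾 →* Matrix m m R, ∀ g, σ g = T (g : GL (Fin n) R) := by
  have H : ∀ {A B : Mt n R → Matrix m m R}, (∀ i j, PF fun x => A x i j) →
      (∀ i j, PF fun x => B x i j) → ∀ i j, PF fun x => (A x * B x) i j := fun hA hB i j => by
    simp only [mul_apply]
    exact PF.sum _ fun l _ => (hA i l).mul (hB l j)
  refine ⟨⟨⟨fun g => T (g : GL (Fin n) R), ?_⟩, fun a b => ?_⟩, fun _ => rfl⟩
  · simpa using (e 1).symm
  refine eq_zcl (A := fun x : Mt n R => T (x * ((b : GL (Fin n) R) : Mt n R)))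
    (B := fun x => T x * T (b : GL (Fin n) R))
    (fun i j => (hT i j).comp (PF.mulE PF.entry (pf_c _)))
    (H hT fun _ _ => PF.const _) ?_ (hd a.2)
  rintro _ ⟨s, hs, rfl⟩
  refine eq_zcl (A := fun x : Mt n R => T ((io k R n s : Mt n R) * x))
    (B := fun x => T (io k R n s) * T x)
    (fun i j => (hT i j).comp (PF.mulE (pf_c _) PF.entry))
    (H (fun _ _ => PF.const _) hT) ?_ (hd b.2)
  rintro _ ⟨t, ht, rfl⟩
  rw [← e ⟨s, hs⟩, ← e ⟨t, ht⟩, ← map_mul, e]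
  simp

theorem ker_finite (h : AbsSimple k 𝔾) {m : Type} [Fintype m] [DecidableEq m]
    (σ : 𝔾 →* Matrix m m R) {T : Mt n R → Matrix m m R} (hT : ∀ i j, PF fun x => T x i j)
    (e : ∀ g, σ g = T (g : GL (Fin n) R)) (h1 : ∃ g, σ g ≠ 1) : {g | σ g = 1}.Finite := by
  have hm : ∀ g : 𝔾, g ∈ σ.toHomUnits.ker ↔ σ g = 1 := fun g => Units.ext_iff
  have hc : ZCl (σ.toHomUnits.ker.map 𝔾.subtype : Set (GL (Fin n) R)) := fun g hg => by
    refine ⟨⟨g, zcl_subset h.closed (Subgroup.map_subtype_le _) hg⟩, (hm _).2 ((e _).trans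
      (eq_zcl (B := fun _ => 1) hT (fun _ _ => PF.const _) ?_ hg)), rfl⟩
    rintro _ ⟨y, hy, rfl⟩
    exact (e y).symm.trans ((hm y).1 hy)
  rcases h.simple _ (Subgroup.map_subtype_le _) hc
    (fun g hg x ⟨y, hy, e⟩ => ⟨_, (MonoidHom.normal_ker _).conj_mem y hy ⟨g, hg⟩, e ▸ rfl⟩)
    with h2 | h2
  · obtain ⟨g, hg⟩ := h1
    obtain ⟨y, hy, e⟩ := h2.ge g.2
    exact (hg ((hm g).1 (Subtype.ext e ▸ hy))).elim
  · exact (h2.preimage Subtype.val_injective.injOn).subset fun g hg => ⟨g, (hm g).2 hg, rfl⟩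

end Alg

section Top

variable {n : ℕ} {k K : Type} [NontriviallyNormedField k] [NormedField K] [NormedAlgebra k K]
  [IsAlgClosed K] {𝔾 : Subgroup (GL (Fin n) K)}

/-- properness on the group of `K`-points -/
theorem abs_proper (h : AbsSimple k 𝔾) {m : Type} [Fintype m] [DecidableEq m]
    (σ : 𝔾 →* Matrix m m K) {T : Mt n K → Matrix m m K} (hT : ∀ i j, PF fun x => T x i j)
    (e : ∀ g, σ g = T (g : GL (Fin n) K)) (h1 : ∃ g, σ g ≠ 1) {S : Set 𝔾} (h2 : BdM S σ)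
    (h3 : BdM S fun g => σ g⁻¹) : BdM S fun g => ((g : GL (Fin n) K) : Mt n K) := by
  refine proper ((Units.coeHom _).comp 𝔾.subtype) σ (fun x hx => ?_) (fun a ha b hb hab => ?_)
    (fun i j => ?_) (ker_finite h σ hT e h1) h2 h3
  · have h4 : ∀ p ∈ van (𝔾 : Set (GL (Fin n) K)), ev x p = 0 := fun p hp => hx p fun g => hp _ g.2
    obtain ⟨p, hp⟩ := (PF.det (PF.entry (n := n) (R := K))).sub (PF.const 1)
    have h5 : x.det = 1 := sub_eq_zero.1 ((hp x).trans (h4 p fun g hg =>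
      (hp _).symm.trans (sub_eq_zero.2 (abs_det h g hg))))
    have h6 : IsUnit x := (isUnit_iff_isUnit_det x).2 (h5 ▸ isUnit_one)
    exact ⟨⟨h6.unit, h.closed _ h4⟩, rfl⟩
  · obtain ⟨p, hp⟩ := (mem_coef_iff _).1 ha
    obtain ⟨q, hq⟩ := (mem_coef_iff _).1 hb
    refine (h.conn.mem_or_mem (x := p) (y := q) fun g hg => ?_).imp
      (fun h => funext fun g => (hp g).trans (h _ g.2)) fun h => funext fun g => (hq g).trans (h _ g.2)
    rw [map_mul]
    exact (congrArg₂ _ (hp ⟨g, hg⟩) (hq ⟨g, hg⟩)).symm.trans (congrFun hab ⟨g, hg⟩)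
  · obtain ⟨p, hp⟩ := hT i j
    exact (mem_coef_iff _).2 ⟨p, fun g => by rw [e]; exact hp _⟩

theorem bdM_iff {X m R : Type*} [NormedField R] [Fintype m] {S : Set X} {ρ : X → Matrix m m R} :
    BdM S ρ ↔ ∃ r, ∀ g ∈ S, ‖ρ g‖ ≤ r :=
  ⟨fun h => let ⟨C, h0, hC⟩ := bd_unif fun q : m × m => h q.1 q.2
    ⟨C, fun g hg => (Matrix.norm_le_iff h0.le).2 fun i j => hC (i, j) g hg⟩,
    fun ⟨r, h⟩ i j => ⟨r, fun g hg => (Matrix.norm_entry_le_entrywise_sup_norm _).trans (h g hg)⟩⟩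

/-- properness of the polynomial representations over `K` -/
theorem prop_K (h : AbsSimple k 𝔾) (hd : (𝔾 : Set (GL (Fin n) K)) ⊆ zcl (io k K n '' pts k 𝔾))
    {m : Type} [Fintype m] [DecidableEq m] (ρ : pts k 𝔾 →* Matrix m m K)
    (hp : ∀ i j, ∃ p : Pl n K, ∀ g : pts k 𝔾,
      ρ g i j = ev (((g : GL (Fin n) k) : Mt n k).map (algebraMap k K)) p) (h1 : ∃ g, ρ g ≠ 1)
    {S : Set (pts k 𝔾)} (h2 : BdM S ρ) (h3 : BdM S fun g => ρ g⁻¹) :
    BdM S fun g => ((g : GL (Fin n) k) : Mt n k) := fun i j => by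
  choose p hp using hp
  have hT : ∀ i j, PF fun x => (of fun i j => ev x (p i j)) i j := fun i j => PF.of _
  obtain ⟨σ, e⟩ := exists_ext hd ρ hT fun g => Matrix.ext fun i j => hp i j g
  let u : pts k 𝔾 →* 𝔾 := (io k K n).subgroupComap 𝔾
  have e' : ∀ g, σ (u g) = ρ g := fun g => (e _).trans (Matrix.ext fun i j => (hp i j g).symm)
  obtain ⟨C, hC⟩ := abs_proper h σ hT e (h1.elim fun g hg => ⟨u g, e' g ▸ hg⟩) (S := u '' S)
    (fun i j => (h2 i j).imp fun C h _ ⟨g, hg, e⟩ => by simpa [← e, e'] using h g hg)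
    (fun i j => (h3 i j).imp fun C h _ ⟨g, hg, e⟩ => by simpa [← e, ← map_inv, e'] using h g hg) i j
  exact ⟨C, fun g hg => (norm_algebraMap' K _).symm.trans_le (hC _ (mem_image_of_mem _ hg))⟩

theorem dense_of (hd : ∀ p : Pl n K, (∀ᶠ x in 𝓝 (1 : Mt n k), Mem (pts k 𝔾) x →
      ev (x.map (algebraMap k K)) p = 0) → p ∈ van (𝔾 : Set (GL (Fin n) K)))
    {O : Set (GL (Fin n) k)} (hO : O ∈ 𝓝 1) :
    (𝔾 : Set (GL (Fin n) K)) ⊆ zcl (io k K n '' (O ∩ pts k 𝔾)) := fun g hg p hp => by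
  refine hd p ?_ g hg
  obtain ⟨V, h1, h2⟩ := mem_comap.1 ((emb_val.nhds_eq_comap (1 : GL (Fin n) k)).ge hO)
  refine mem_of_superset (show V ∈ 𝓝 (1 : Mt n k) from h1) ?_
  rintro _ hx ⟨s, hs, rfl⟩
  exact hp (io k K n s) (mem_image_of_mem _ ⟨h2 hx, hs⟩)

/-- block A2 -/
theorem simp_pts (h : AbsSimple k 𝔾) (hd : ∀ p : Pl n K, (∀ᶠ x in 𝓝 (1 : Mt n k), Mem (pts k 𝔾) x →
      ev (x.map (algebraMap k K)) p = 0) → p ∈ van (𝔾 : Set (GL (Fin n) K))) : Simp (pts k 𝔾) := by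
  have h0 := dense_of hd univ_mem
  rw [univ_inter] at h0
  refine ⟨pts_ncomm h h0, fun N hN hc => ?_, fun m ρ hp h1 r => ?_⟩
  · refine (finite_or_dense h (N := N.map (io k K n)) (Subgroup.map_le_iff_le_comap.2 hN)
      (dense_of hd hc) (fun _ ⟨s, hs, e⟩ => e ▸ hs.2) ?_).imp
      (fun h => h.of_finite_image io_inj.injOn) fun h2 p hp g hg => (algebraMap k K).injective ?_
    · rintro _ ⟨s, hs, rfl⟩ _ ⟨x, hx, rfl⟩
      exact ⟨_, hs.1 hs.2 x hx, by simp⟩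
    · rw [← ev_map, map_zero]
      refine h2 hg _ ?_
      rintro _ ⟨x, hx, rfl⟩
      rw [io_val, ev_map, hp x hx, map_zero]
  · have e : ∀ (a : Mt m k) i j, ‖(algebraMap k K).mapMatrix a i j‖ = ‖a i j‖ :=
      fun a i j => norm_algebraMap' K _
    obtain ⟨C, hC⟩ := bdM_iff.1 (prop_K h h0 ((algebraMap k K).mapMatrix.toMonoidHom.comp ρ)
      (fun i j => (hp i j).elim fun p hp => ⟨_, fun g => by rw [ev_map, ← hp]; rfl⟩)
      (h1.imp fun g hg e => hg (Matrix.map_injective (algebraMap k K).injective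
        (e.trans (map_one (algebraMap k K).mapMatrix).symm)))
      (S := {g | ‖ρ g‖ ≤ r ∧ ‖ρ g⁻¹‖ ≤ r})
      (fun i j => ⟨r, fun g hg => (e _ i j).trans_le
        ((Matrix.norm_entry_le_entrywise_sup_norm _).trans hg.1)⟩)
      fun i j => ⟨r, fun g hg => (e _ i j).trans_le
        ((Matrix.norm_entry_le_entrywise_sup_norm _).trans hg.2)⟩)
    exact ⟨C, fun g a b => hC g ⟨a, b⟩⟩

end Top

end Vale.Agent.P092A2
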