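import Vale.Agent.P092TO.Nu
import Vale.Agent.P092AL.CovD
import Vale.Agent.P092AG.Lin
import Mathlib.RingTheory.Localization.Integer
import Mathlib.RingTheory.Localization.FractionRing

/-! The centraliser of a maximal split torus is compact modulo the torus. -/

set_option linter.all false

open Matrix Filter Topology
open scoped Matrix.Norms.Elementwise

noncomputable section

namespace Vale.Agent.P092A2

open Vale.Agent.P092AG Vale.Agent.P092TO

/-- a family on which no integral form vanishes spans over the rationals -/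
theorem span_of_dual {n : ℕ} {ι : Type} [Fintype ι] {A : AddSubgroup (Fin n → ℤ)} {om : ι → A}
    (h : ∀ c : A →+ ℤ, (∀ j, c (om j) = 0) → c = 0) (y : A) :
    ∃ q : ι → ℚ, ∀ i, (y.1 i : ℚ) = ∑ j, q j * (om j).1 i := by
  by_contra c
  have : (fun i => (y.1 i : ℚ)) ∉ Submodule.span ℚ (Set.range fun j i => ((om j).1 i : ℚ)) := fun a => by
    obtain ⟨q, hq⟩ := (Submodule.mem_span_range_iff_exists_fun _).1 a
    exact c ⟨q, fun i => by simpa using (congrFun hq i).symm⟩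
  obtain ⟨φ, h1, h2⟩ := Submodule.exists_le_ker_of_notMem this
  obtain ⟨b, hb⟩ := IsLocalization.exist_integer_multiples_of_finite (nonZeroDivisors ℤ)
    fun i => φ fun j => if i = j then 1 else 0
  choose a ha using hb
  let ψ : A →+ ℤ := ∑ i, (AddMonoidHom.mulRight (a i)).comp
    ((Pi.evalAddMonoidHom (fun _ => ℤ) i).comp A.subtype)
  have e : ∀ x : A, (ψ x : ℚ) = b.1 * φ fun i => (x.1 i : ℚ) := fun x => by
    rw [LinearMap.pi_apply_eq_sum_univ, Finset.mul_sum, AddMonoidHom.finset_sum_apply, Int.cast_sum]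
    refine Finset.sum_congr rfl fun i _ => ?_
    have := ha i
    rw [eq_intCast, zsmul_eq_mul] at this
    rw [smul_eq_mul, mul_left_comm, ← this]
    exact Int.cast_mul _ _
  have := e y
  rw [h ψ fun j => Int.cast_injective (α := ℚ) (by
    rw [e, h2 (Submodule.subset_span ⟨j, rfl⟩), mul_zero, Int.cast_zero])] at this
  exact mul_ne_zero (Int.cast_ne_zero.2 (nonZeroDivisors.coe_ne_zero b)) h1 (this.symm.trans (by simp))

theorem norm_det_le {K m : Type} [NormedField K] [IsAlgClosed K] [Fintype m] [DecidableEq m]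
    {a : Matrix m m K} {ρ : ℝ} (h : ∀ (c : K) v, v ≠ 0 → a *ᵥ v = c • v → ‖c‖ ≤ ρ) :
    ‖a.det‖ ≤ ρ ^ Fintype.card m := by
  have h3 : ∀ c ∈ a.charpoly.roots, ‖c‖ ≤ ρ := fun c hc => by
    have := Polynomial.isRoot_of_mem_roots hc
    rw [Polynomial.IsRoot, eval_charpoly] at this
    obtain ⟨v, h0, hv⟩ := exists_mulVec_eq_zero_iff.2 this
    refine h c v h0 ?_
    rw [sub_mulVec, sub_eq_zero] at hv
    rw [← hv]
    ext i
    simp [mulVec_diagonal]
  rw [det_eq_prod_roots_charpoly, ← charpoly_natDegree_eq_dim a,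
    ← IsAlgClosed.card_roots_eq_natDegree]
  generalize a.charpoly.roots = s at h3
  induction s using Multiset.induction_on with
  | empty => simp
  | cons c s ih =>
    rw [Multiset.prod_cons, norm_mul, Multiset.card_cons, pow_succ']
    exact mul_le_mul (h3 c (by simp)) (ih fun b hb => h3 b (by simp [hb])) (norm_nonneg _)
      ((norm_nonneg c).trans (h3 c (by simp)))

variable {n : ℕ} {k : Type} [NontriviallyNormedField k] {G : Subgroup (GL (Fin n) k)}
  {𝔤 : Submodule k (Mt n k)} {y : Fin n → ℤ} {z : GL (Fin n) k} {ρ : ℝ}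

theorem fy_tor (h1 : ∀ g ∈ G, (g : Mt n k).det = 1) (hy : y ∈ Y G) (h0 : y ≠ 0) {t : kˣ}
    (ht : ‖(t : k)‖ < 1) : fy y (tor y t).val ≠ 1 := by
  have p : ∀ (s : kˣ) (a : Fin n → ℤ), ∏ i, (s : k) ^ a i = (s : k) ^ ∑ i, a i := fun s a =>
    Finset.induction_on Finset.univ (by simp) fun i S hi ih => by
      rw [Finset.prod_insert hi, Finset.sum_insert hi, zpow_add₀ s.ne_zero, ih]
  have s0 : ∑ i, y i = 0 := zpow_inj_of (k := k) fun s => by
    rw [← p, zpow_zero, ← h1 _ (hy s), tor_val, det_diagonal]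
  have m : ∀ c, mn y c (tor y t).val = (t : k) ^ ∑ i, if c < y i then y i else 0 :=
    fun c => by
      rw [tor_val, mn, P092AL.mn_diag, ← p]
      exact Finset.prod_congr rfl fun i _ => by split_ifs <;> simp
  have nn : ∀ c, 0 ≤ ∑ i, if c < y i then y i else 0 := fun c => by
    rcases le_total 0 c with a | a
    · exact Finset.sum_nonneg fun i _ => by split_ifs <;> omega
    · exact s0.ge.trans (Finset.sum_le_sum fun i _ => by split_ifs <;> omega)
  obtain ⟨i, hi⟩ : ∃ i, 0 < y i := by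
    by_contra c
    push Not at c
    exact h0 (funext fun i => (Finset.sum_eq_zero_iff_of_nonpos fun i _ => c i).1 s0 i (by simp))
  intro e
  have := congrArg norm e
  simp only [fy, P092AL.ff, ← zpow_add₀ t.ne_zero, p, show ∀ c, P092AL.mn y c _ = _ from m,
    norm_zpow, norm_one] at this
  refine (zpow_lt_one₀ (norm_pos_iff.2 t.ne_zero) ht (Finset.sum_pos'
    (fun a _ => add_nonneg (nn _) (nn _)) ⟨i, Finset.mem_univ _, add_pos_of_nonneg_of_pos (nn _)
      (Finset.sum_pos' (fun a _ => by split_ifs <;> omega) ⟨i, Finset.mem_univ _, ?_⟩)⟩)).ne this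
  rwa [if_pos (by omega)]

variable (K : Type) [NormedField K] [NormedAlgebra k K]

/-- all the eigenvalues have norm at most `ρ` -/
def Sp (ρ : ℝ) (x : Mt n k) : Prop := ∀ c : K, Eig Set.univ x c → ‖c‖ ≤ ρ

variable {K}

theorem Sp.conj (h : Sp K ρ z.val) (e : GL (Fin n) k) : Sp K ρ (e * z * e⁻¹).val := by
  rintro c ⟨v, h0, -, hv⟩
  refine h c ⟨e⁻¹.val.map (algebraMap k K) *ᵥ v, fun a => h0 ?_, fun _ a => (a trivial).elim, ?_⟩
  · simpa only [mulVec_mulVec, ← Matrix.map_mul, Units.mul_inv, mulVec_zero, Matrix.map_one,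
      map_zero, map_one, one_mulVec] using congrArg (e.val.map (algebraMap k K) *ᵥ ·) a
  · rw [← mulVec_smul, ← hv, mulVec_mulVec, mulVec_mulVec, ← Matrix.map_mul, ← Matrix.map_mul,
      ← Units.val_mul, ← Units.val_mul, mul_assoc, inv_mul_cancel_left]

variable [IsAlgClosed K]

theorem Sp.mn (h : Sp K ρ z.val) (h1 : 1 ≤ ρ) (hz : z ∈ Lgl y) (a : ℤ) : ‖mn y a z.val‖ ≤ ρ ^ n := by
  have e : (P092AL.tr y a z.val).map (algebraMap k K) = P092AL.tr y a (z.val.map (algebraMap k K)) := by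
    have : (P092AL.pj k y a).map (algebraMap k K) = P092AL.pj K y a := by
      ext i j
      simp only [P092AL.pj, map_apply, diagonal_apply]
      split_ifs <;> simp
    simp only [P092AL.tr, ← this]
    exact ((algebraMap k K).mapMatrix.map_add _ _).trans (by simp only [map_mul, map_sub, map_one]; rfl)
  have l : P092AL.Lv y (z.val.map (algebraMap k K)) := fun i j c =>
    isL_lv.1 hz i j fun d => c (by simp [d])
  rw [← norm_algebraMap' K, P092AG.mn, P092AL.mn, RingHom.map_det, RingHom.mapMatrix_apply, e]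
  refine (norm_det_le fun c v h0 hv => ?_).trans_eq (by rw [Fintype.card_fin])
  by_cases d : P092AL.pj K y a *ᵥ v = 0
  · rw [P092AL.tr, add_mulVec, ← mulVec_mulVec, d, mulVec_zero, zero_add, sub_mulVec, d, sub_zero,
      one_mulVec] at hv
    rw [smul_left_injective K h0 (hv.symm.trans (one_smul K v).symm), norm_one]
    exact h1
  · refine h c ⟨_, d, fun _ a => (a trivial).elim, ?_⟩
    rw [← mulVec_smul, ← hv, mulVec_mulVec, mulVec_mulVec, P092AL.tr, mul_add, mul_sub, mul_one,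
      P092AL.pj_sq, sub_self, add_zero, ← mul_assoc, ← mul_assoc, P092AL.pj_sq, l.pp.pj]

theorem Sp.fy (h : Sp K ρ z.val) (h1 : 1 ≤ ρ) (hz : z ∈ Lgl y) :
    ‖fy y z.val‖ ≤ ∏ _i : Fin n, ρ ^ n * ρ ^ n := by
  rw [P092AG.fy, P092AL.ff, norm_prod]
  exact Finset.prod_le_prod (fun _ _ => norm_nonneg _) fun i _ => (norm_mul_le _ _).trans
    (mul_le_mul (h.mn h1 hz _) (h.mn h1 hz _) (norm_nonneg _) (by positivity))

theorem sp_of_nu (hM : Max K G) (hz : z ∈ Zc G) {r : ℝ} (h : ∀ i, nu G z i ≤ r) :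
    Sp K (Real.exp r) z.val := fun c hc =>
  let ⟨i, hi⟩ := eig_bk hz hc
  (Real.log_le_iff_le_exp (norm_pos_iff.2 (eig_ne hc))).1 ((nu_eig hM hz hi).trans_le (h i))

/-- the elements of the centraliser with bounded eigenvalues are bounded -/
theorem bdd_of_sp (hN : Nice G 𝔤) (hS : Simp G) (hy : y ∈ Y G) (h0 : y ≠ 0) (hc : Cov G y)
    (h1 : 1 ≤ ρ) : ∃ r, ∀ z ∈ Zc G, Sp K ρ z.val → Sp K ρ z⁻¹.val → ‖z.val‖ ≤ r := by
  obtain ⟨t, ht, -⟩ := exists_unif k
  obtain ⟨E, R, e1, e2⟩ := hc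
  obtain ⟨r, hr⟩ := hS.bdd (pf_fy y) ⟨1, G.one_mem, _, hy t, by
      rw [one_mul, Units.val_one, fy_one]; exact fy_tor hN.det1 hy h0 ht⟩
    (A := {z | z ∈ Zc G ∧ Sp K ρ z.val ∧ Sp K ρ z⁻¹.val}) (fun z a => (mem_Zc.1 a.1).1)
    (fun z a => ⟨(Zc G).inv_mem a.1, a.2.2, by rw [inv_inv]; exact a.2.1⟩) fun w hw w' hw' =>
      ⟨∑ e ∈ E, |R w| * ((∏ _i : Fin n, ρ ^ n * ρ ^ n) * ‖fy y (e * w').val‖), fun z a => by
        obtain ⟨e, he, h⟩ := e2 _ (G.mul_mem (mem_Zc.1 a.1).1 hw')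
        have l := (mem_Zc.1 (Nm_conj (e1 e he) a.1)).2 y hy
        rw [mul_assoc]
        refine (h w hw).trans (le_trans ?_ (Finset.single_le_sum (f := fun e : GL (Fin n) k =>
          |R w| * ((∏ _i : Fin n, ρ ^ n * ρ ^ n) * ‖fy y (e * w').val‖))
          (fun _ _ => by positivity) he))
        rw [show e * (z * w') = e * z * e⁻¹ * (e * w') by group, Units.val_mul,
          fy_left (Lgl_le_Pgl_neg y l), norm_mul]
        exact mul_le_mul (le_abs_self _) (mul_le_mul_of_nonneg_right ((a.2.1.conj e).fy h1 l)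
          (norm_nonneg _)) (by positivity) (abs_nonneg _)⟩
  exact ⟨r, fun z a b c => hr z ⟨a, b, c⟩⟩

theorem bdd_of_nu (hN : Nice G 𝔤) (hS : Simp G) (hM : Max K G) (hy : y ∈ Y G) (h0 : y ≠ 0)
    (hc : Cov G y) (a : ℝ) : ∃ r, ∀ z ∈ Zc G, (∀ i, |nu G z i| ≤ a) → ‖z.val‖ ≤ r := by
  obtain ⟨r, hr⟩ := bdd_of_sp (K := K) hN hS hy h0 hc (Real.one_le_exp (abs_nonneg a))
  exact ⟨r, fun z hz h => hr z hz (sp_of_nu hM hz fun i => ((le_abs_self _).trans (h i)).trans
    (le_abs_self a)) (sp_of_nu hM ((Zc G).inv_mem hz) fun i => by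
      rw [nu_inv hz]; exact ((neg_le_abs _).trans (h i)).trans (le_abs_self a))⟩

omit [IsAlgClosed K] in
theorem isClosed_Zc (hG : IsClosed (G : Set (GL (Fin n) k))) : IsClosed (Zc G : Set (GL (Fin n) k)) := by
  simp only [Zc, Subgroup.coe_inf, Subgroup.coe_iInf]
  exact hG.inter (isClosed_iInter fun y => isClosed_iInter fun _ => isClosed_Lgl y)

/-- **CPT.** The centraliser of the torus is compact modulo the torus. -/
theorem cpt [ProperSpace k] (hN : Nice G 𝔤) (hS : Simp G) (hM : Max K G) (hy : y ∈ Y G) (h0 : y ≠ 0)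
    (hc : Cov G y) {ι : Type} [Fintype ι] {om : ι → Y G}
    (ho : ∀ c : Y G →+ ℤ, (∀ j, c (om j) = 0) → c = 0) {t : kˣ} (ht : ‖(t : k)‖ ≠ 1) :
    ∃ C : Set (GL (Fin n) k), IsCompact C ∧ C ⊆ Zc G ∧ ∀ z ∈ Zc G, ∃ m : ι → ℤ, ∃ c ∈ C,
      z = tor (∑ j, m j • om j : Y G) t * c := by
  have l0 := Real.log_ne_zero_of_pos_of_ne_one (norm_pos_iff.2 t.ne_zero) ht
  obtain ⟨r, hr⟩ := bdd_of_nu hN hS hM hy h0 hc (∑ i, ∑ j, |Real.log ‖(t : k)‖| * |((om j).1 i : ℝ)|)
  refine ⟨{z | z ∈ Zc G ∧ ‖z.val‖ ≤ r}, isCompact_of_bdd ((isClosed_Zc hN.closed.isClosed).inter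
    (isClosed_le Units.continuous_val.norm continuous_const))
    (fun g a => hN.det1 g (mem_Zc.1 a.1).1) fun g a => a.2, fun g a => a.1, fun z hz => ?_⟩
  have : YR G ≤ Submodule.span ℝ (Set.range fun j i => ((om j).1 i : ℝ)) := Submodule.span_le.2 (by
    rintro _ ⟨x, hx, rfl⟩
    obtain ⟨q, hq⟩ := span_of_dual ho ⟨x, hx⟩
    refine (Submodule.mem_span_range_iff_exists_fun _).2 ⟨fun j => q j, funext fun i => ?_⟩
    simpa using (congrArg (Rat.cast : ℚ → ℝ) (hq i)).symm)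
  obtain ⟨a, ha⟩ := (Submodule.mem_span_range_iff_exists_fun _).1 (this (nu_mem hM hz))
  let s : Y G := ∑ j, ⌊a j / Real.log ‖(t : k)‖⌋ • om j
  have hs := tor_mem_Zc s.2 t
  have h2 := (Zc G).mul_mem ((Zc G).inv_mem hs) hz
  refine ⟨_, _, ⟨h2, hr _ h2 fun i => ?_⟩, (mul_inv_cancel_left (tor s t) z).symm⟩
  refine le_trans ?_ (Finset.single_le_sum (f := fun i => ∑ j, |Real.log ‖(t : k)‖| *
    |((om j).1 i : ℝ)|) (fun _ _ => by positivity) (Finset.mem_univ i))
  have e : nu G ((tor s t)⁻¹ * z) i = ∑ j, Int.fract (a j / Real.log ‖(t : k)‖) *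
      (Real.log ‖(t : k)‖ * (om j).1 i) := by
    rw [nu_mul ((Zc G).inv_mem hs) hz, nu_inv hs, Pi.add_apply, Pi.neg_apply, nu_tor s.2, ← ha]
    simp only [s, AddSubmonoidClass.coe_finset_sum, Finset.sum_apply, Int.cast_sum, Finset.sum_mul,
      ← Finset.sum_neg_distrib, ← Finset.sum_add_distrib, AddSubgroup.coe_zsmul, Pi.smul_apply,
      smul_eq_mul, Int.cast_mul, Int.fract]
    exact Finset.sum_congr rfl fun j _ => by field_simp; ring
  rw [e]
  refine (Finset.abs_sum_le_sum_abs _ _).trans (Finset.sum_le_sum fun j _ => ?_)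
  rw [abs_mul, abs_mul, abs_of_nonneg (Int.fract_nonneg _)]
  exact mul_le_of_le_one_left (by positivity) (Int.fract_lt_one _).le

/-- the same with the subgroup generated by the one parameter groups -/
theorem cpt' [ProperSpace k] (hN : Nice G 𝔤) (hS : Simp G) (hM : Max K G) (hy : y ∈ Y G) (h0 : y ≠ 0)
    (hc : Cov G y) {ι : Type} [Fintype ι] {om : ι → Y G}
    (ho : ∀ c : Y G →+ ℤ, (∀ j, c (om j) = 0) → c = 0) :
    ∃ C : Set (GL (Fin n) k), IsCompact C ∧ C ⊆ Zc G ∧ ∀ z ∈ Zc G,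
      ∃ s ∈ Subgroup.closure {g | ∃ j t, g = tor (om j).1 t}, ∃ c ∈ C, z = s * c := by
  obtain ⟨t, ht, -⟩ := exists_unif k
  obtain ⟨C, h1, h2, h3⟩ := cpt hN hS hM hy h0 hc ho ht.ne
  refine ⟨C, h1, h2, fun z hz => ?_⟩
  obtain ⟨m, c, a, e⟩ := h3 z hz
  refine ⟨_, mem_Y.1 ?_ t, c, a, e⟩
  rw [AddSubmonoidClass.coe_finset_sum]
  refine sum_mem fun j _ => zsmul_mem (mem_Y.2 fun t => Subgroup.subset_closure ?_) (m j)
  exact ⟨j, t, rfl⟩

end Vale.Agent.P092A2
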