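import Vale.Agent.P092A2.Simp
import Vale.Agent.P092.UN.St

/-! Bounded polynomial functions, groups of elliptic elements, the norm of the algebraic closure. -/

set_option linter.all false

open Set Matrix Filter Topology Module
open scoped Matrix.Norms.Elementwise

noncomputable section

namespace Vale.Agent.P092A2

open Vale.Agent.P092AG

/-- the representation on a finite dimensional space of functions stable under right translations -/
theorem exists_rep {k Γ : Type} [Field k] [Group Γ] (W : Submodule k (Γ → k)) (hW : W.FG)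
    (hi : ∀ φ ∈ W, ∀ g, (fun h => φ (h * g)) ∈ W) : ∃ (m : ℕ) (ρ : Γ →* Mt m k),
      (∀ i j, ∃ (E : Finset Γ) (c : Γ → k), ∃ φ ∈ W, ∀ g, ρ g i j = ∑ e ∈ E, φ (e * g) * c e) ∧
      ∀ g, ρ g = 1 → ∀ φ ∈ W, ∀ h, φ (h * g) = φ h := by
  have : Module.Finite k W := Module.Finite.iff_fg.2 hW
  obtain ⟨E, ψ, h1, h2⟩ := exists_interp W hW
  let σ : Γ →* End k W :=
    { toFun := fun g => ⟨⟨fun φ => ⟨_, hi φ.1 φ.2 g⟩, fun _ _ => rfl⟩, fun _ _ => rfl⟩
      map_one' := by ext; simp
      map_mul' := fun _ _ => by ext; simp [mul_assoc] }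
  let b := finBasis k W
  refine ⟨_, (LinearMap.toMatrixAlgEquiv b).toMonoidHom.comp σ, fun i j =>
    ⟨E, fun e => b.repr ⟨ψ e, h1 e⟩ i, b j, (b j).2, fun g => ?_⟩, fun g hg φ hφ h => ?_⟩
  · have h3 : σ g (b j) = ∑ e ∈ E, (b j).1 (e * g) • ⟨ψ e, h1 e⟩ :=
      Subtype.ext ((h2 _ (σ g (b j)).2).trans (by simp [σ]))
    refine (LinearMap.toMatrixAlgEquiv_apply b _ i j).trans ?_
    simp only [h3, map_sum, map_smul, Finsupp.finset_sum_apply, Finsupp.smul_apply, smul_eq_mul]
  · exact congrFun (congrArg Subtype.val (LinearMap.congr_fun ((LinearMap.toMatrixAlgEquiv b).injective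
      (hg.trans (map_one _).symm)) ⟨φ, hφ⟩)) h

section Triv

variable {K Γ : Type} [NormedField K] [IsAlgClosed K] [Group Γ]

theorem bd_of_irred {V : Type} [AddCommGroup V] [Module K V] [FiniteDimensional K V]
    (ρ : Representation K Γ V) (h : ∀ W : Submodule K V, (∀ g, W ≤ W.comap (ρ g)) → W = ⊥ ∨ W = ⊤)
    (he : ∀ g (c : K) v, v ≠ 0 → ρ g v = c • v → ‖c‖ ≤ 1) (l : Dual K V) (v : V) :
    Bd univ fun g => l (ρ g v) := by
  let b := finBasis K V
  have e : ∀ g w, (LinearMap.toMatrixAlgEquiv b (ρ g)).mulVec (b.equivFun w) = b.equivFun (ρ g w) :=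
    fun g w => LinearMap.toMatrix_mulVec_repr b b (ρ g) w
  obtain ⟨C, -, hC⟩ := bl ((LinearMap.toMatrixAlgEquiv b).toMonoidHom.comp ρ) (fun W hW =>
    (h (W.comap b.equivFun.toLinearMap) fun g w hw => show b.equivFun _ ∈ W from e g w ▸ hW g _ hw).imp
      (fun h => Submodule.comap_injective_of_surjective b.equivFun.surjective
        (h.trans (by simp))) fun h => Submodule.comap_injective_of_surjective b.equivFun.surjective h)
    (c := fun _ => 1) (fun _ => zero_le_one) (fun _ _ => by simp) fun g c hc => by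
      obtain ⟨w, hw⟩ := ((End.hasEigenvalue_iff_isRoot_charpoly (ρ g) c).2
        ((ρ g).charpoly_toMatrix b ▸ hc)).exists_hasEigenvector
      exact he g c w hw.2 hw.apply_eq_smul
  refine (bd_sum Finset.univ fun i _ => (bd_sum Finset.univ fun j _ =>
    Bd.mul (f := fun g => LinearMap.toMatrixAlgEquiv b (ρ g) i j) ⟨_, fun g _ => hC g i j⟩
      (bd_const (b.equivFun v j))).mul (bd_const (l (b i)))).congr fun g _ => ?_
  rw [← b.sum_equivFun (ρ g v), ← e, map_sum]
  simp [mulVec, dotProduct]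

theorem triv_rep (𝒜 : Set (Γ → K)) (h1 : ∀ F ∈ 𝒜, Bd univ F → ∀ g, F g = F 1)
    (h2 : ∀ F ∈ 𝒜, (∀ g ∈ commutator Γ, F g = F 1) → ∀ g, F g = F 1) (d : ℕ) :
    ∀ (V : Type) [AddCommGroup V] [Module K V] [FiniteDimensional K V] (ρ : Representation K Γ V),
      finrank K V = d → (∀ (l : Dual K V) v, (fun g => l (ρ g v)) ∈ 𝒜) →
      (∀ g (c : K) v, v ≠ 0 → ρ g v = c • v → ‖c‖ ≤ 1) → ∀ g v, ρ g v = v := by
  induction d using Nat.strong_induction_on with | _ d ih => ?_
  intro V _ _ _ ρ hd hA he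
  have H : (∀ (l : Dual K V) v g, l (ρ g v) = l (ρ 1 v)) → ∀ g v, ρ g v = v := fun h g v =>
    sub_eq_zero.1 ((forall_dual_apply_eq_zero_iff K _).1 fun l => by simp [h l v g])
  by_cases h : ∀ W : Submodule K V, (∀ g, W ≤ W.comap (ρ g)) → W = ⊥ ∨ W = ⊤
  · exact H fun l v => h1 _ (hA l v) (bd_of_irred ρ h he l v)
  push Not at h
  obtain ⟨W, hW, h3, h4⟩ := h
  have a1 := ih _ (hd ▸ W.finrank_lt h4) W (ρ.subrepresentation W hW) rfl (fun l v => by
    obtain ⟨l, rfl⟩ := Subspace.dualRestrict_surjective (W := W) l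
    exact hA l v) fun g c v hv e => he g c v (fun e => hv (Subtype.ext e)) (congrArg Subtype.val e)
  have a2 := ih _ (by
    have := W.finrank_quotient_add_finrank
    have := Submodule.one_le_finrank_iff.2 h3
    omega) (V ⧸ W) (ρ.quotient W hW) rfl (fun l v => by
      obtain ⟨v, rfl⟩ := W.mkQ_surjective v
      exact hA (l.comp W.mkQ) v) fun g c v hv e => by
    obtain ⟨v, rfl⟩ := W.mkQ_surjective v
    by_contra hc
    have a3 : ∀ w ∈ W, ρ g w = w := fun w hw => congrArg Subtype.val (a1 g ⟨w, hw⟩)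
    have a4 : ρ g v - c • v ∈ W := (Submodule.Quotient.eq W).1 e
    have a5 : 1 - c ≠ 0 := fun e => hc (by rw [← sub_eq_zero.1 e, norm_one])
    refine hc (he g c (v - (1 - c)⁻¹ • (ρ g v - c • v)) (fun e => hv ((Submodule.Quotient.mk_eq_zero W).2
      (sub_eq_zero.1 e ▸ W.smul_mem _ a4))) ?_)
    rw [map_sub, a3 _ (W.smul_mem _ a4)]
    generalize ρ g v = u
    match_scalars <;> field_simp <;> ring
  have a3 : ∀ g h v, ρ (g * h) v - v = (ρ g v - v) + (ρ h v - v) := fun g h v => by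
    have a4 : ρ g (ρ h v - v) = ρ h v - v :=
      congrArg Subtype.val (a1 g ⟨_, (Submodule.Quotient.eq W).1 (a2 h (W.mkQ v))⟩)
    rw [map_sub] at a4
    rw [map_mul, End.mul_apply, sub_eq_iff_eq_add.1 a4]; abel
  refine H fun l v => h2 _ (hA l v) fun g hg => ?_
  let τ : Γ →* Multiplicative V := MonoidHom.mk' (fun g => .ofAdd (ρ g v - v)) fun g h => a3 g h v
  rw [sub_eq_zero.1 (show ρ g v - v = 0 from Abelianization.commutator_subset_ker τ hg), map_one]
  rfl

end Triv

section Top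

variable {n : ℕ} {k : Type} [NontriviallyNormedField k] {G : Subgroup (GL (Fin n) k)}

/-- a bounded polynomial function on an unbounded simple group is constant -/
theorem const_of_bd (hs : Simp G) (hu : ¬∃ r, ∀ x ∈ G, ‖(x : Mt n k)‖ ≤ r) {F : Mt n k → k}
    (hF : PF F) (hb : Bd univ fun g : G => F (g : GL (Fin n) k)) (g : GL (Fin n) k) (hg : g ∈ G) :
    F g = F 1 := by
  let j : G →* Mt n k := (Units.coeHom _).comp G.subtype
  obtain ⟨W, h1, h2, h3⟩ := coef_le_rf j ((mem_coef_iff j).2 (hF.imp fun p hp g => hp (j g)))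
  let W' := Submodule.span k (range fun a h : G => F (j (h * a)))
  have h4 : W' ≤ W := Submodule.span_le.2 (range_subset_iff.2 h3)
  have h5 : W' ≤ (bdAlg k univ).toSubmodule := Submodule.span_le.2 (range_subset_iff.2 fun a =>
    Bd.comp hb (mapsTo_univ (· * a) _))
  obtain ⟨m, ρ, h6, h7⟩ := exists_rep W' (h1.of_le h4) fun φ hφ g => by
    refine (show W' ≤ W'.comap (LinearMap.funLeft k k (· * g)) from
      Submodule.span_le.2 (range_subset_iff.2 fun a => ?_)) hφ
    exact Submodule.subset_span ⟨g * a, funext fun h => by simp [LinearMap.funLeft, mul_assoc]⟩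
  by_contra hn
  have h8 : BdM univ ρ := fun i j => by
    obtain ⟨E, c, φ, a, b⟩ := h6 i j
    exact (bd_sum E fun e _ => (Bd.comp (h5 a) (mapsTo_univ (e * ·) _)).mul (bd_const (c e))).congr
      fun g _ => b g
  obtain ⟨r, hr⟩ := bdM_iff.1 h8
  obtain ⟨r', h9⟩ := hs.prop m ρ (fun i l => by
    obtain ⟨E, c, φ, a, b⟩ := h6 i l
    obtain ⟨p, hp⟩ := (mem_coef_iff j).1 (h2 (h4 a))
    obtain ⟨q, hq⟩ := PF.sum E fun e _ => (((PF.of p).lr (j e) 1).mul (PF.const (c e)))
    exact ⟨q, fun g => by rw [b, ← hq]; simp [hp, ev, j]⟩) ⟨⟨g, hg⟩, fun e => hn (by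
      simpa [j] using h7 _ e _ (Submodule.subset_span ⟨1, rfl⟩) 1)⟩ r
  exact hu ⟨r', fun x hx => h9 ⟨x, hx⟩ (hr _ trivial) (hr _ trivial)⟩

/-- the commutator subgroup is dense -/
theorem van_comm (hs : Simp G) (hp : (van (G : Set (GL (Fin n) k))).IsPrime) :
    van ((commutator G).map G.subtype : Set (GL (Fin n) k)) ≤ van (G : Set (GL (Fin n) k)) := by
  refine (hs.norm _ (Subgroup.map_subtype_le _) (Eventually.of_forall ?_)).resolve_left fun h => ?_
  · rintro g hg _ ⟨y, hy, rfl⟩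
    exact ⟨_, (inferInstance : (commutator G).Normal).conj_mem y hy ⟨g, hg⟩, rfl⟩
  obtain ⟨a, ha, b, hb, h2⟩ := hs.ncomm
  exact h2 (comm_of_finite hp h (fun g hg => ⟨_, Subgroup.commutator_mem_commutator
    (Subgroup.mem_top (⟨g, hg⟩ : G)) (Subgroup.mem_top (⟨b, hb⟩ : G)), rfl⟩) ha)

theorem bdd_of_ell [CompleteSpace k] {K : Type} [NormedField K] [NormedAlgebra k K] [IsAlgClosed K]
    {𝔤 : Submodule k (Mt n k)} (hn : Nice G 𝔤) (hs : Simp G) (he : ∀ x ∈ G, Ell K (x : Mt n k)) :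
    ∃ r, ∀ x ∈ G, ‖(x : Mt n k)‖ ≤ r := by
  by_contra hu
  have pf : ∀ (c : Fin n × Fin n → K) (φ : Dual k K),
      PF fun x : Mt n k => φ (∑ q, x q.1 q.2 • c q) := fun c φ => by
    simp only [map_sum, map_smul, smul_eq_mul]
    exact PF.sum _ fun q _ => (PF.entry _ _).mul (PF.const _)
  have H : ∀ a b : K, (∀ φ : Dual k K, φ a = φ b) → a = b := fun a b h =>
    sub_eq_zero.1 ((forall_dual_apply_eq_zero_iff k _).1 fun φ => by rw [map_sub, h, sub_self])
  let ρ : Representation K G (Fin n → K) := (Matrix.toLinAlgEquiv' (R := K)).toMonoidHom.comp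
    ((Units.coeHom _).comp ((io k K n).comp G.subtype))
  have h1 := triv_rep {F : G → K | ∃ c : Fin n × Fin n → K,
      ∀ g : G, F g = ∑ q, ((g : GL (Fin n) k) : Mt n k) q.1 q.2 • c q}
    (fun F ⟨c, hc⟩ ⟨C, hC⟩ g => H _ _ fun φ => by
      have : FiniteDimensional k (Submodule.span k (range c)) := .span_of_finite k (finite_range c)
      let ψ := (φ.domRestrict (Submodule.span k (range c))).toContinuousLinearMap
      rw [hc, hc]
      refine const_of_bd hs hu (pf c φ) ⟨‖ψ‖ * C, fun x _ => (ψ.le_opNorm ⟨_, Submodule.sum_mem _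
        fun q _ => Submodule.smul_mem _ _ (Submodule.subset_span ⟨q, rfl⟩)⟩).trans ?_⟩ g g.2
      exact mul_le_mul_of_nonneg_left ((congrArg norm (hc x)).ge.trans (hC x trivial))
        (norm_nonneg _))
    (fun F ⟨c, hc⟩ h g => H _ _ fun φ => by
      refine sub_eq_zero.1 (hc g ▸ zero_zcl ((pf c φ).sub (PF.const (φ (F 1)))) ?_
        fun p hp => van_comm hs hn.prime hp g g.2)
      rintro _ ⟨y, hy, rfl⟩
      exact sub_eq_zero.2 (congrArg φ ((hc y).symm.trans (h y hy))))
    _ _ ρ rfl (fun l v => ⟨fun q => l (Pi.single q.1 (v q.2)), fun g => by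
      beta_reduce
      rw [Fintype.sum_prod_type, ← Finset.univ_sum_single (ρ g v), map_sum]
      refine Finset.sum_congr rfl fun i _ => ?_
      change l (Pi.single i (∑ j, algebraMap k K _ * v j)) = _
      refine (map_sum (l.comp (LinearMap.single K (fun _ => K) i)) _ _).trans
        (Finset.sum_congr rfl fun j _ => ?_)
      rw [← smul_eq_mul, map_smul, algebraMap_smul]
      rfl⟩)
    fun g c v hv e => (he g g.2 c ⟨v, hv, fun _ h => (h trivial).elim, e⟩).le
  have h2 : ∀ g ∈ G, g = 1 := fun g hg => io_inj (R := K) (Units.ext (Matrix.toLin'.injective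
    (LinearMap.ext fun v => (h1 ⟨g, hg⟩ v).trans (by simp))))
  exact hu ⟨‖(1 : Mt n k)‖, fun x hx => h2 x hx ▸ le_rfl⟩

/-- the absolute value of the algebraic closure of a local field -/
theorem exists_abs (k : Type) [NontriviallyNormedField k] [CompleteSpace k] (hk : P092.UN.LocK k)
    (K : Type) [Field K] [Algebra k K] [IsAlgClosed K] [Algebra.IsAlgebraic k K] :
    ∃ f : AbsoluteValue K ℝ, ∀ x, f (algebraMap k K x) = ‖x‖ := by
  have : IsAlgClosure k K := ⟨‹_›, ‹_›⟩
  have H : ∀ {L : Type} [NormedField L] (e : K ≃+* L), ∃ f : AbsoluteValue K ℝ, ∀ x, f x = ‖e x‖ :=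
    fun e => ⟨⟨⟨fun x => ‖e x‖, by simp⟩, fun _ => norm_nonneg _, by simp,
      fun x y => by simpa using norm_add_le _ _⟩, fun _ => rfl⟩
  rcases hk with ⟨φ, h⟩ | ⟨φ, h⟩ | h
  · have : IsAlgClosure ℝ ℂ := ⟨inferInstance, inferInstance⟩
    exact (H (IsAlgClosure.equivOfEquiv K ℂ φ)).imp fun f hf x => by simpa [hf] using h x
  · exact (H (IsAlgClosure.equivOfEquiv K ℂ φ)).imp fun f hf x => by simpa [hf] using h x
  · exact ⟨@NormedField.toAbsoluteValue K (spectralNorm.normedField k K), spectralNorm_extends⟩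

/-- the normed algebra structure given by an absolute value -/
abbrev absAlg {k K : Type} [NormedField k] [Field K] [Algebra k K] (f : AbsoluteValue K ℝ)
    (h : ∀ x, f (algebraMap k K x) = ‖x‖) : letI := f.toNormedField; NormedAlgebra k K :=
  letI := f.toNormedField
  ⟨fun c x => le_of_eq (by rw [Algebra.smul_def, norm_mul, ← h]; rfl)⟩

end Top

end Vale.Agent.P092A2
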