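import Mathlib

/-! Bounded functions, interpolation, properness of representations with finite kernel. -/

set_option linter.all false

open Set Polynomial

noncomputable section

namespace Vale.Agent.P092A2

/-- interpolation on a finite dimensional space of functions -/
theorem exists_interp {K X : Type*} [Field K] (W : Submodule K (X → K)) (hW : W.FG) :
    ∃ (E : Finset X) (ψ : X → X → K), (∀ e, ψ e ∈ W) ∧ ∀ φ ∈ W, φ = ∑ e ∈ E, φ e • ψ e := by
  classical
  have : Module.Finite K W := Module.Finite.iff_fg.2 hW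
  let L : (E : Finset X) → W →ₗ[K] (E → K) := fun E =>
    LinearMap.pi fun e => (LinearMap.proj e.1).comp W.subtype
  obtain ⟨_, ⟨E, rfl⟩, hE⟩ := (wellFounded_lt (α := Submodule K W)).has_min
    (range fun E => LinearMap.ker (L E)) ⟨_, ∅, rfl⟩
  have h1 : LinearMap.ker (L E) = ⊥ := by
    refine (Submodule.eq_bot_iff _).2 fun φ hφ => Subtype.ext (funext fun x => ?_)
    have h2 : LinearMap.ker (L (insert x E)) ≤ LinearMap.ker (L E) := fun ψ hψ =>
      funext fun e => congrFun hψ ⟨e.1, Finset.mem_insert_of_mem e.2⟩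
    exact congrFun ((eq_of_le_of_not_lt h2 (hE _ ⟨_, rfl⟩)).ge hφ) ⟨x, Finset.mem_insert_self _ _⟩
  obtain ⟨σ, hσ⟩ := (L E).exists_leftInverse_of_injective h1
  refine ⟨E, fun x => σ fun e => if x = e.1 then 1 else 0, fun e => (σ _).2, fun φ hφ => ?_⟩
  have h2 : L E ⟨φ, hφ⟩ = ∑ x ∈ E, φ x • fun e : E => if x = e.1 then (1 : K) else 0 := by
    funext e
    simp [L, Finset.sum_apply]
  have h3 := congrArg Subtype.val (LinearMap.congr_fun hσ ⟨φ, hφ⟩)
  rw [LinearMap.comp_apply, h2] at h3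
  simpa using h3.symm

section Bd

variable {K X : Type*} [NormedField K] {S T : Set X} {f g : X → K}

/-- bounded on `S` -/
def Bd (S : Set X) (f : X → K) : Prop := ∃ C, ∀ x ∈ S, ‖f x‖ ≤ C

theorem Bd.mono (h : Bd S f) (hT : T ⊆ S) : Bd T f := h.imp fun _ h x hx => h x (hT hx)

theorem Bd.congr (h : Bd S f) (e : ∀ x ∈ S, g x = f x) : Bd S g :=
  h.imp fun _ h x hx => e x hx ▸ h x hx

theorem Bd.comp {Y : Type*} (h : Bd S f) {u : Y → X} {T : Set Y} (hu : MapsTo u T S) :
    Bd T fun y => f (u y) := h.imp fun _ h y hy => h _ (hu hy)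

theorem bd_const (c : K) : Bd S fun _ => c := ⟨‖c‖, fun _ _ => le_rfl⟩

theorem Bd.add (h : Bd S f) (h' : Bd S g) : Bd S (f + g) :=
  let ⟨C, h⟩ := h
  let ⟨C', h'⟩ := h'
  ⟨C + C', fun x hx => (norm_add_le _ _).trans (add_le_add (h x hx) (h' x hx))⟩

theorem Bd.mul (h : Bd S f) (h' : Bd S g) : Bd S (f * g) :=
  let ⟨C, h⟩ := h
  let ⟨C', h'⟩ := h'
  ⟨C * C', fun x hx => (norm_mul_le _ _).trans
    (mul_le_mul (h x hx) (h' x hx) (norm_nonneg _) ((norm_nonneg _).trans (h x hx)))⟩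

/-- the algebra of functions bounded on `S` -/
def bdAlg (K : Type*) [NormedField K] (S : Set X) : Subalgebra K (X → K) where
  carrier := {f | Bd S f}
  mul_mem' := Bd.mul
  add_mem' := Bd.add
  algebraMap_mem' := bd_const

theorem bd_sum {ι : Type*} (s : Finset ι) {f : ι → X → K} (h : ∀ i ∈ s, Bd S (f i)) :
    Bd S fun x => ∑ i ∈ s, f i x :=
  Bd.congr ((bdAlg K S).sum_mem h) fun x _ => (Finset.sum_apply x s f).symm

theorem bd_unif {ι : Type*} [Finite ι] {f : ι → X → K} (h : ∀ i, Bd S (f i)) :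
    ∃ C > 0, ∀ i, ∀ x ∈ S, ‖f i x‖ ≤ C := by
  choose C hC using h
  obtain ⟨D, hD⟩ := (finite_range C).bddAbove
  exact ⟨max D 1, by positivity, fun i x hx =>
    (hC i x hx).trans ((hD (mem_range_self i)).trans (le_max_left _ _))⟩

theorem bd_iUnion {ι : Type*} [Finite ι] {S : ι → Set X} (h : ∀ i, Bd (S i) f) :
    Bd (⋃ i, S i) f := by
  choose C hC using h
  obtain ⟨D, hD⟩ := (finite_range C).bddAbove
  exact ⟨D, fun x hx => let ⟨i, hi⟩ := mem_iUnion.1 hx; (hC i x hi).trans (hD (mem_range_self i))⟩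

theorem bd_of_integral {R A : Type*} [CommRing R] [CommRing A] [Algebra R A] (φ : A →+* (X → K))
    (h : ∀ c : R, Bd S (φ (algebraMap R A c))) {y : A} (hy : IsIntegral R y) : Bd S (φ y) := by
  obtain ⟨p, h1, h2⟩ := hy
  obtain ⟨C, h0, hC⟩ := bd_unif fun i : Fin p.natDegree => h (p.coeff i)
  refine ⟨C + 1, fun x hx => ?_⟩
  let u : R →+* K := (Pi.evalRingHom _ x).comp (φ.comp (algebraMap R A))
  have h3 : (p.map u).IsRoot (φ y x) := by
    have := congrArg ((Pi.evalRingHom (fun _ => K) x).comp φ) h2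
    rw [hom_eval₂, map_zero] at this
    rwa [IsRoot.def, eval_map]
  have h4 := h3.norm_lt_cauchyBound (h1.map u).ne_zero
  rw [cauchyBound, (h1.map u).leadingCoeff, nnnorm_one, div_one, h1.natDegree_map] at h4
  lift C to NNReal using h0.le
  refine NNReal.coe_le_coe.2 (h4.le.trans (add_le_add (Finset.sup_le fun i hi => ?_) le_rfl))
  rw [coeff_map]
  exact hC ⟨i, Finset.mem_range.1 hi⟩ x hx

end Bd

/-- functions whose right translates lie in a finite dimensional part of `B` -/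
def rfAlg {K Γ : Type*} [Field K] [Mul Γ] (B : Subalgebra K (Γ → K)) : Subalgebra K (Γ → K) where
  carrier := {b | ∃ W : Submodule K (Γ → K), W.FG ∧ W ≤ B.toSubmodule ∧
    ∀ g, (fun h => b (h * g)) ∈ W}
  mul_mem' := fun ⟨W, a, b, c⟩ ⟨W', a', b', c'⟩ => ⟨W * W', a.mul a',
    Submodule.mul_le.2 fun _ x _ y => B.mul_mem (b x) (b' y),
    fun g => Submodule.mul_mem_mul (c g) (c' g)⟩
  add_mem' := fun ⟨W, a, b, c⟩ ⟨W', a', b', c'⟩ => ⟨W ⊔ W', a.sup a', sup_le b b',
    fun g => Submodule.add_mem_sup (c g) (c' g)⟩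
  algebraMap_mem' c := ⟨Submodule.span K {algebraMap K _ c}, Submodule.fg_span_singleton _,
    (Submodule.span_singleton_le_iff_mem _ _).2 (B.algebraMap_mem c),
    fun _ => Submodule.mem_span_singleton_self _⟩

/-- the algebra generated by the matrix coefficients -/
def coef {K Γ m : Type*} [Field K] (ρ : Γ → Matrix m m K) : Subalgebra K (Γ → K) :=
  Algebra.adjoin K (range fun p : m × m => fun g => ρ g p.1 p.2)

theorem mem_coef {K Γ m : Type*} [Field K] (ρ : Γ → Matrix m m K) (i k : m) :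
    (fun g => ρ g i k) ∈ coef ρ := Algebra.subset_adjoin ⟨(i, k), rfl⟩

theorem coef_le {K Γ m : Type*} [Field K] {ρ : Γ → Matrix m m K} {A : Subalgebra K (Γ → K)}
    (h : ∀ i k, (fun g => ρ g i k) ∈ A) : coef ρ ≤ A :=
  Algebra.adjoin_le (range_subset_iff.2 fun p => h p.1 p.2)

theorem coef_le_rf {K Γ m : Type*} [Field K] [Monoid Γ] [Fintype m] [DecidableEq m]
    (ρ : Γ →* Matrix m m K) : coef ρ ≤ rfAlg (coef ρ) := coef_le fun i k =>
  ⟨Submodule.span K (range fun l => fun g => ρ g i l), Submodule.fg_span (finite_range _),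
    Submodule.span_le.2 (range_subset_iff.2 fun l => mem_coef ρ i l), fun g => by
      have : (fun h => ρ (h * g) i k) = ∑ l, ρ g l k • fun h => ρ h i l := by
        funext h; simp [Matrix.mul_apply, Finset.sum_apply, mul_comm]
      rw [this]
      exact Submodule.sum_mem _ fun l _ => Submodule.smul_mem _ _ (Submodule.subset_span ⟨l, rfl⟩)⟩

section Mat

variable {K Γ m n : Type*} [NormedField K] [Group Γ] [Fintype m] [DecidableEq m] [Fintype n]
  [DecidableEq n] {S : Set Γ}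

/-- all entries are bounded on `S` -/
def BdM {X : Type*} (S : Set X) (ρ : X → Matrix m m K) : Prop := ∀ i k, Bd S fun g => ρ g i k

theorem BdM.mul {X : Type*} {S : Set X} {ρ σ : X → Matrix m m K} (h : BdM S ρ) (h' : BdM S σ) :
    BdM S fun g => ρ g * σ g := fun i k =>
  (bd_sum Finset.univ fun l _ => (h i l).mul (h' l k)).congr fun _ _ => Matrix.mul_apply

theorem bdM_const {X : Type*} {S : Set X} (a : Matrix m m K) : BdM S fun _ => a :=
  fun _ _ => bd_const _

/-- a nonzero polynomial in `ρ` is bounded below on a finite set of translates -/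
theorem exists_lower (ρ : Γ →* Matrix m m K) {b : Γ → K} (hb : b ∈ coef ρ) (h0 : b ≠ 0) :
    ∃ E : Finset Γ, ∀ S : Set Γ, (BdM S fun g => ρ g⁻¹) →
      ∃ ε > 0, ∀ g ∈ S, ∃ e ∈ E, ε ≤ ‖b (e * g)‖ := by
  obtain ⟨W, h1, h2, h3⟩ := coef_le_rf ρ hb
  obtain ⟨E, ψ, h4, h5⟩ := exists_interp W h1
  obtain ⟨a, ha⟩ := Function.ne_iff.1 h0
  refine ⟨E, fun S hS => ?_⟩
  have h6 : coef ρ ≤ bdAlg K ((fun g => a * g⁻¹) '' S) := coef_le fun i k =>
    (((bdM_const (ρ a)).mul hS) i k).imp fun C h _ ⟨g, hg, e⟩ => by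
      simpa [← e] using h g hg
  obtain ⟨C, h7, h8⟩ := bd_unif fun e : E => h6 (h2 (h4 e))
  have h9 := norm_pos_iff.2 ha
  refine ⟨‖b a‖ / ((E.card + 1) * C), by positivity, fun g hg => by_contra fun hn => ?_⟩
  push Not at hn
  have h10 := congrFun (h5 _ (h3 g)) (a * g⁻¹)
  simp only [inv_mul_cancel_right, Finset.sum_apply, Pi.smul_apply, smul_eq_mul] at h10
  have h11 : ‖b a‖ ≤ E.card • (‖b a‖ / ((E.card + 1) * C) * C) := by
    refine (congrArg norm h10).trans_le ((norm_sum_le _ _).trans (Finset.sum_le_card_nsmul _ _ _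
      fun e he => (norm_mul_le _ _).trans (mul_le_mul (hn e he).le
        (h8 ⟨e, he⟩ _ (mem_image_of_mem _ hg)) (norm_nonneg _) (by positivity))))
  rw [nsmul_eq_mul, div_mul_eq_mul_div, mul_div_mul_right _ _ h7.ne', ← mul_div_assoc,
    le_div_iff₀ (by positivity)] at h11
  nlinarith

/-- if the entries of `j` become bounded after multiplication by `b`, then `ρ` is proper -/
theorem proper_of (ρ : Γ →* Matrix m m K) (j : Γ →* Matrix n n K) {b : Γ → K} (hb : b ∈ coef ρ)
    (h0 : b ≠ 0) (h : ∀ S, BdM S ρ → ∀ i k, Bd S fun g => b g * j g i k) (h1 : BdM S ρ)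
    (h2 : BdM S fun g => ρ g⁻¹) : BdM S j := fun i k => by
  obtain ⟨E, hE⟩ := exists_lower ρ hb h0
  obtain ⟨ε, h3, h4⟩ := hE S h2
  refine (bd_iUnion (S := fun e : E => {g | g ∈ S ∧ ε ≤ ‖b (e * g)‖}) fun e => ?_).mono
    fun g hg => let ⟨e, h5, h6⟩ := h4 g hg; mem_iUnion.2 ⟨⟨e, h5⟩, hg, h6⟩
  have h5 : BdM {g | g ∈ S ∧ ε ≤ ‖b (e * g)‖} fun g => j (e * g) := fun i k => by
    obtain ⟨C, hC⟩ := h ((fun g => e * g) '' S) (fun i k => (((bdM_const (ρ e)).mul h1) i k).imp
      fun C h _ ⟨g, hg, e⟩ => by simpa [← e] using h g hg) i k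
    refine ⟨C / ε, fun g hg => ?_⟩
    have := hC _ (mem_image_of_mem _ hg.1)
    rw [norm_mul] at this
    rw [le_div_iff₀' h3]
    exact (mul_le_mul_of_nonneg_right hg.2 (norm_nonneg _)).trans this
  exact (((bdM_const (j (e : Γ)⁻¹)).mul h5) i k).congr fun g _ => by
    simp only [← map_mul, inv_mul_cancel_left]

end Mat

end Vale.Agent.P092A2
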