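import Vale.Agent.P092A2.Exp
import Mathlib.Algebra.Lie.CartanCriterion
import Mathlib.Algebra.Lie.Matrix

/-! Characteristic zero: the Lie algebra of a simple group is simple, infinite locally normal
subgroups are open. -/

set_option linter.all false

open Matrix Filter Topology NormedSpace
open scoped Matrix.Norms.Elementwise

noncomputable section

namespace Vale.Agent.P092A2

open Vale.Agent.P092AG Vale.Agent.P092CQ

attribute [local instance 100] LieRing.ofAssociativeRing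

variable {n : ℕ} {k : Type} [NontriviallyNormedField k] {G H N : Subgroup (GL (Fin n) k)}
  {𝔤 𝔞 : Submodule k (Mt n k)} {X Y : Mt n k} {S : Set (Mt n k)}

theorem Tn_fin (hN : (N : Set (GL (Fin n) k)).Finite) (hX : X ∈ Tn N) : X = 0 := by
  obtain ⟨γ, a1, a2, a3⟩ := mem_Tn.1 hX
  have hc := ((hN.image fun g : GL (Fin n) k => (g : Mt n k)).diff (t := {1})).isClosed
  have := a1.hasDerivAt.continuousAt.eventually (hc.isOpen_compl.mem_nhds fun c => c.2 a2)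
  refine a1.hasDerivAt.unique ((hasDerivAt_const (0 : k) (1 : Mt n k)).congr_of_eventuallyEq
    ((a3.and this).mono fun t a => ?_))
  by_contra c
  exact a.2 ⟨a.1, c⟩

variable [CharZero k] [CompleteSpace k]

theorem exp_der0 (X : Mt n k) : HasStrictDerivAt (fun s : k => exp (s • X)) X 0 := by
  simpa only [zero_smul, exp_zero, one_mul] using (exp_der X).self_of_nhds

theorem exp_Tn (h : ∀ᶠ t : k in 𝓝 0, Mem N (exp (t • X))) : X ∈ Tn N :=
  mem_Tn.2 ⟨_, exp_der0 X, by rw [zero_smul, exp_zero], h⟩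

theorem exp_mem' (hN : Nice G 𝔤) (hX : X ∈ 𝔤) : ∀ᶠ t : k in 𝓝 0, ∃ g ∈ G,
    (g : Mt n k) = exp (t • X) ∧ ((g⁻¹ : GL (Fin n) k) : Mt n k) = exp (t • -X) :=
  exp_mem hN.closed ((Tn_eq hN.chart).ge hX)

theorem lie_mem (hN : Nice G 𝔤) (hX : X ∈ 𝔤) (hY : Y ∈ 𝔤) : X * Y - Y * X ∈ 𝔤 := by
  have := (exp_conj_der X Y).self_of_nhds.sub_const Y
  simp only [zero_smul, exp_zero, one_mul, mul_one] at this
  refine mem_of_curve this (by simp) ((exp_mem' hN hX).mono ?_)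
  rintro t ⟨g, hg, a, b⟩
  rw [← a, ← b]
  exact 𝔤.sub_mem (Ad_mem hN.chart hg hY) hY

/-- an invariant set which commutes with a nonzero tangent vector commutes with the group -/
theorem key (hN : Nice G 𝔤) (hS : Simp G) (hs : ∀ g ∈ G, ∀ s ∈ S, Ad g s ∈ S) (hX : X ∈ 𝔤)
    (h0 : X ≠ 0) (hc : ∀ s ∈ S, Commute X s) : ∀ g ∈ G, ∀ s ∈ S, Commute (g : Mt n k) s := by
  let N : Subgroup (GL (Fin n) k) :=
    { carrier := {g | g ∈ G ∧ ∀ s ∈ S, Commute (g : Mt n k) s}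
      mul_mem' := fun a b => ⟨G.mul_mem a.1 b.1, fun s c => (a.2 s c).mul_left (b.2 s c)⟩
      one_mem' := ⟨G.one_mem, fun s _ => Commute.one_left s⟩
      inv_mem' := fun a => ⟨G.inv_mem a.1, fun s c => (a.2 s c).units_inv_left⟩ }
  have := (hS.norm N (fun _ a => a.1) (.of_forall fun g hg x hx =>
    ⟨G.mul_mem (G.mul_mem hg hx.1) (G.inv_mem hg), fun s c => ?_⟩)).resolve_left fun c => h0 <|
      Tn_fin c (exp_Tn ((exp_mem' hN hX).mono fun t ⟨g, hg, a, _⟩ =>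
        ⟨g, ⟨hg, fun s c => a ▸ ((hc s c).smul_left t).exp_left⟩, a⟩))
  · intro g hg s c
    exact eq_zcl (A := fun x => x * s) (B := fun x => s * x) (PF.mulE PF.entry (pf_c s))
      (PF.mulE (pf_c s) PF.entry) (fun x hx => hx.2 s c) fun p hp => this hp g hg
  · have := congrArg (Ad g) (hx.2 _ (hs _ (G.inv_mem hg) s c)).eq
    simpa [Ad_apply, Commute, SemiconjBy, mul_assoc] using this

theorem cen_zero (hN : Nice G 𝔤) (hS : Simp G) (hX : X ∈ 𝔤)
    (hc : ∀ g ∈ G, Commute X (g : GL (Fin n) k)) : X = 0 := by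
  by_contra h0
  obtain ⟨g, hg, h, hh, e⟩ := hS.ncomm
  refine e (Units.ext (key (S := {x | Mem G x}) hN hS (fun g hg s => mem_Ad fun x a =>
    G.mul_mem (G.mul_mem hg a) (G.inv_mem hg)) hX h0 ?_ g hg _ ⟨h, hh, rfl⟩))
  rintro _ ⟨g, hg, rfl⟩
  exact hc g hg

theorem zero_of_comm (hN : Nice G 𝔤) (hS : Simp G) (hs : ∀ g ∈ G, ∀ s ∈ S, Ad g s ∈ S) (hX : X ∈ 𝔤)
    (hX' : X ∈ Submodule.span k S) (hc : ∀ s ∈ S, Commute X s) : X = 0 := by
  by_contra h0
  exact h0 (cen_zero hN hS hX fun g hg => (LinearMap.eqOn_span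
    (f := LinearMap.mulLeft k (g : Mt n k)) (g := LinearMap.mulRight k (g : Mt n k))
    (fun s c => key hN hS hs hX h0 hc g hg s c) hX').symm)

omit [CharZero k] [CompleteSpace k] in
theorem Ad_mul (g : GL (Fin n) k) (X Y : Mt n k) : Ad g (X * Y) = Ad g X * Ad g Y := by
  simp [Ad_apply, mul_assoc]

omit [CharZero k] [CompleteSpace k] in
theorem tr_Ad (g : GL (Fin n) k) (X : Mt n k) : trace (Ad g X) = trace X := by
  rw [Ad_apply, trace_mul_cycle, Units.inv_mul, one_mul]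

omit [CharZero k] [CompleteSpace k] in
theorem Ad_inv (g : GL (Fin n) k) (X : Mt n k) : Ad g (Ad g⁻¹ X) = X := by
  rw [← Module.End.mul_apply, ← map_mul, mul_inv_cancel, map_one, Module.End.one_apply]

/-- the trace form is nondegenerate on the Lie algebra -/
theorem tr_nondeg (hN : Nice G 𝔤) (hS : Simp G) (hX : X ∈ 𝔤) (h : ∀ Y ∈ 𝔤, trace (X * Y) = 0) :
    X = 0 := by
  let r : LieSubalgebra k (Mt n k) :=
    { carrier := {X | X ∈ 𝔤 ∧ ∀ Y ∈ 𝔤, trace (X * Y) = 0}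
      add_mem' := fun a b => ⟨𝔤.add_mem a.1 b.1, fun Y c => by
        rw [add_mul, trace_add, a.2 Y c, b.2 Y c, add_zero]⟩
      zero_mem' := ⟨𝔤.zero_mem, fun Y _ => by rw [zero_mul, trace_zero]⟩
      smul_mem' := fun c X a => ⟨𝔤.smul_mem c a.1, fun Y b => by
        rw [smul_mul_assoc, trace_smul, a.2 Y b, smul_zero]⟩
      lie_mem' := fun {x y} a b => ⟨lie_mem hN a.1 b.1, fun Y c => by
        rw [← a.2 _ (lie_mem hN b.1 c), Ring.lie_def, sub_mul, mul_sub, trace_sub, trace_sub,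
          mul_assoc, mul_assoc, trace_mul_comm y, mul_assoc]⟩ }
  have ad : ∀ g ∈ G, ∀ x ∈ r, Ad g x ∈ r := fun g hg x a => ⟨Ad_mem hN.chart hg a.1, fun Y b => by
    rw [← Ad_inv g Y, ← Ad_mul, tr_Ad, a.2 _ (Ad_mem hN.chart (G.inv_mem hg) b)]⟩
  have e : ∀ x : r, LieModule.toEnd k r (Fin n → k) x = toLin' x.1 := fun x => rfl
  have h1 := LieModule.isNilpotent_derivedSeries_of_traceForm_eq_zero (R := k) (L := r)
    (M := Fin n → k) (by
      ext x y
      rw [LieModule.traceForm_apply_apply, e, e, ← toLin'_mul, trace_toLin'_eq]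
      exact x.2.2 y y.2.1)
  have h2 : LieRing.IsNilpotent (LieAlgebra.derivedSeries k r 1) := by
    rw [LieAlgebra.isNilpotent_iff_forall (R := k)]
    intro x
    refine LieSubalgebra.isNilpotent_ad_of_isNilpotent_ad
      (LieAlgebra.derivedSeries k r 1 : LieSubalgebra k r) (x := x)
      (LieAlgebra.isNilpotent_ad_of_isNilpotent ?_)
    exact (IsNilpotent.map_iff (f := toLinAlgEquiv' (R := k) (n := Fin n)) (AlgEquiv.injective _)).1
      ((LieModule.isNilpotent_iff_forall' (R := k)).1 h1 x)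
  have h3 : Subsingleton (LieAlgebra.derivedSeries k r 1) := by
    by_contra c
    have := not_subsingleton_iff_nontrivial.1 c
    have := LieAlgebra.non_trivial_center_of_isNilpotent (R := k) (L := LieAlgebra.derivedSeries k r 1)
    obtain ⟨⟨⟨z, z1⟩, z2⟩, z3⟩ := exists_ne (0 : LieAlgebra.center k (LieAlgebra.derivedSeries k r 1))
    refine z3 (Subtype.ext (Subtype.ext (Subtype.ext (zero_of_comm
      (S := r.subtype '' {⁅x, y⁆ | (x : r) (y : r)}) hN hS ?_ z.2.1 ?_ ?_))))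
    · rintro g hg _ ⟨_, ⟨x, y, rfl⟩, rfl⟩
      exact ⟨_, ⟨⟨_, ad g hg _ x.2⟩, ⟨_, ad g hg _ y.2⟩, rfl⟩,
        ((map_sub (Ad g) _ _).trans (congrArg₂ _ (Ad_mul g _ _) (Ad_mul g _ _))).symm⟩
    · rw [Submodule.span_image]
      exact ⟨z, (LieAlgebra.coe_derivedSeries_one_eq k r).le z1, rfl⟩
    · rintro _ ⟨w, hw, rfl⟩
      have hw : w ∈ LieAlgebra.derivedSeries k r 1 :=
        (LieAlgebra.coe_derivedSeries_one_eq k r).ge (Submodule.subset_span hw)
      exact (sub_eq_zero.1 (congrArg (fun x => x.1.1) (z2 ⟨w, hw⟩))).symm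
  refine zero_of_comm (S := r) hN hS ad hX (Submodule.subset_span ⟨hX, h⟩) fun s hs => ?_
  have hw : ⁅(⟨X, hX, h⟩ : r), (⟨s, hs⟩ : r)⁆ ∈ LieAlgebra.derivedSeries k r 1 :=
    (LieAlgebra.coe_derivedSeries_one_eq k r).ge (Submodule.subset_span ⟨_, _, rfl⟩)
  exact sub_eq_zero.1 (congrArg (fun x => x.1.1) (h3.elim ⟨_, hw⟩ 0))

/-- a proper subspace of the Lie algebra has a nonzero orthogonal vector -/
theorem le_of_orth (hN : Nice G 𝔤) (hS : Simp G)
    (h : ∀ Z ∈ 𝔤, (∀ Y ∈ 𝔤, Y ∈ 𝔞 → trace (Z * Y) = 0) → Z = 0) : 𝔤 ≤ 𝔞 := fun X hX => by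
  by_contra c
  obtain ⟨φ, h1, h2⟩ := Submodule.exists_le_ker_of_notMem c
  let B : 𝔤 →ₗ[k] Module.Dual k 𝔤 :=
    ((LinearMap.mul k (Mt n k)).compr₂ (traceLinearMap (Fin n) k k)).domRestrict₁₂ 𝔤 𝔤
  obtain ⟨Z, hZ⟩ := (LinearMap.injective_iff_surjective_of_finrank_eq_finrank
    Subspace.dual_finrank_eq.symm (f := B)).1 ((injective_iff_map_eq_zero B).2 fun Z a =>
      Subtype.ext (tr_nondeg hN hS Z.2 fun Y b => LinearMap.congr_fun a ⟨Y, b⟩)) (φ.domRestrict 𝔤)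
  rw [(Subtype.ext (h Z Z.2 fun Y a b => (LinearMap.congr_fun hZ ⟨Y, a⟩).trans (h2 b)) : Z = 0),
    map_zero] at hZ
  exact h1 (LinearMap.congr_fun hZ ⟨X, hX⟩).symm

/-- the group has no invariant linear form on its Lie algebra -/
theorem le_of_Ad_sub (hN : Nice G 𝔤) (hS : Simp G) (h : ∀ c ∈ G, ∀ X ∈ 𝔤, Ad c X - X ∈ 𝔞) : 𝔤 ≤ 𝔞 :=
  le_of_orth hN hS fun Z hZ a => cen_zero hN hS hZ fun g hg => by
    have := tr_nondeg hN hS (𝔤.sub_mem (Ad_mem hN.chart hg hZ) hZ) fun Y b => by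
      rw [← a _ (𝔤.sub_mem (Ad_mem hN.chart (G.inv_mem hg) b) b) (h _ (G.inv_mem hg) Y b), sub_mul,
        mul_sub, trace_sub, trace_sub, ← tr_Ad g (Z * Ad g⁻¹ Y), Ad_mul, Ad_inv]
    exact ((Units.mul_inv_eq_iff_eq_mul g).1 (sub_eq_zero.1 this)).symm

/-- **C0.** In characteristic zero an infinite locally normal subgroup is open. -/
theorem c0 (hN : Nice G 𝔤) (hS : Simp G) (hH : H ≤ G) (hl : LN G H)
    (hi : (H : Set (GL (Fin n) k)).Infinite) : ∀ᶠ x in 𝓝 (1 : Mt n k), Mem G x → Mem H x :=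
  open_of_Tn hN.chart hH (le_of_Ad_sub hN hS fun _ hc _ hX => ad_sub hN hS hH hl hi hc hX)

theorem c0' (hN : Nice G 𝔤) (hS : Simp G) (hH : H ≤ G) (hl : LN G H)
    (hi : (H : Set (GL (Fin n) k)).Infinite) : ∀ᶠ g in 𝓝 (1 : GL (Fin n) k), g ∈ G → g ∈ H :=
  ev_mem.2 (c0 hN hS hH hl hi)

end Vale.Agent.P092A2
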