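import Vale.Agent.P092CQ.Cp
import Vale.Agent.P092A2.Simp
import Mathlib.Analysis.SpecialFunctions.Exponential
import Mathlib.Analysis.Analytic.Order
import Mathlib.Analysis.Normed.Field.Ultra
import Mathlib.NumberTheory.Ostrowski
import Mathlib.NumberTheory.Padics.PadicVal.Basic
import Mathlib.RingTheory.Polynomial.Basic

/-! The exponential map of an algebraic group in characteristic zero. -/

set_option linter.all false

open Matrix Filter Topology NormedSpace
open scoped Nat

noncomputable section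

namespace Vale.Agent.P092A2

open Vale.Agent.P092AG Vale.Agent.P092CQ

variable {n : ℕ} {k : Type} [NontriviallyNormedField k] [CharZero k]

theorem fact_lb (k : Type) [NormedField k] [CharZero k] :
    ∃ c : ℝ, 0 < c ∧ ∀ m : ℕ, c ^ m ≤ ‖(m ! : k)‖ := by
  by_cases h : ∀ p : ℕ, p.Prime → 1 ≤ ‖(p : k)‖
  · have : ∀ m : ℕ, m ≠ 0 → 1 ≤ ‖(m : k)‖ := fun m => by
      induction m using induction_on_primes with
      | zero => exact fun a => absurd rfl a
      | one => simp
      | prime_mul p a hp ih =>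
        intro c
        rw [Nat.cast_mul, norm_mul]
        exact one_le_mul_of_one_le_of_one_le (h p hp) (ih (right_ne_zero_of_mul c))
    exact ⟨1, one_pos, fun m => by rw [one_pow]; exact this _ m.factorial_ne_zero⟩
  push Not at h
  obtain ⟨p, hp, h⟩ := h
  have : IsUltrametricDist k := by
    refine IsUltrametricDist.isUltrametricDist_of_forall_norm_natCast_le_one ?_
    by_contra c
    have e : ∀ m : ℕ, (NormedField.toAbsoluteValue k).comp (algebraMap ℚ k).injective m = ‖(m : k)‖ :=
      fun m => congrArg norm (map_natCast (algebraMap ℚ k) m)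
    exact lt_asymm h ((Rat.AbsoluteValue.one_lt_of_not_bounded (by simpa only [e] using c)
      hp.one_lt).trans_eq (e p))
  have := Fact.mk hp
  have h0 : 0 < ‖(p : k)‖ := norm_pos_iff.2 (Nat.cast_ne_zero.2 hp.ne_zero)
  refine ⟨_, h0, fun m => ?_⟩
  obtain ⟨a, b, e⟩ := Nat.isCoprime_iff_coprime.2 (Nat.coprime_ordCompl hp m.factorial_ne_zero)
  have h1 : 1 ≤ ‖((ordCompl[p] m ! : ℕ) : k)‖ := by
    have := congrArg (fun x : ℤ => ‖(x : k)‖) e
    simp only [Int.cast_add, Int.cast_mul, Int.cast_natCast, Int.cast_one, norm_one] at this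
    have h2 := IsUltrametricDist.norm_add_le_max ((a : k) * p) (b * (ordCompl[p] m ! : ℕ))
    rw [this, norm_mul, norm_mul] at h2
    rcases le_max_iff.1 h2 with c | c
    · exact absurd (c.trans (mul_le_of_le_one_left h0.le (IsUltrametricDist.norm_intCast_le_one k a)))
        h.not_ge
    · exact c.trans (mul_le_of_le_one_left (norm_nonneg _) (IsUltrametricDist.norm_intCast_le_one k b))
  rw [← Nat.ordProj_mul_ordCompl_eq_self m ! p, Nat.cast_mul, norm_mul, Nat.cast_pow, norm_pow]
  refine (pow_le_pow_of_le_one h0.le h.le ?_).trans (le_mul_of_one_le_right (by positivity) h1)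
  rw [Nat.factorization_def _ hp]
  exact padicValNat_factorial_le p m

theorem rad_pos (A : Type) [NormedRing A] [NormedAlgebra k A] : 0 < (expSeries k A).radius := by
  obtain ⟨c, hc, h⟩ := fact_lb k
  refine lt_of_lt_of_le (ENNReal.coe_pos.2 (show (0 : NNReal) < ⟨c, hc.le⟩ from hc))
    (FormalMultilinearSeries.le_radius_of_bound _ (max 1 ‖(1 : A)‖) fun m => ?_)
  have h0 : 0 < ‖(m ! : k)‖ := (pow_pos hc m).trans_le (h m)
  rw [expSeries, norm_smul, norm_inv, mul_right_comm]
  exact (mul_le_of_le_one_left (norm_nonneg _) ((inv_mul_le_one₀ h0).2 (h m))).trans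
    ContinuousMultilinearMap.norm_mkPiAlgebraFin_le

variable [CompleteSpace k]

/-- a family of analytic functions which vanish at `0` and is stable under derivation -/
theorem an_zero {ι : Type} (f : ι → k → k) (ha : ∀ i, AnalyticAt k (f i) 0) (h0 : ∀ i, f i 0 = 0)
    (hd : ∀ i, ∃ j, ∀ᶠ t in 𝓝 0, HasDerivAt (f i) (f j t) t) (i : ι) : ∀ᶠ t in 𝓝 0, f i t = 0 := by
  refine analyticOrderAt_eq_top.1 (ENat.eq_top_iff_forall_ge.2 fun m => ?_)
  induction m generalizing i with
  | zero => simp
  | succ m ih =>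
    obtain ⟨j, hj⟩ := hd i
    rw [Nat.cast_add_one, ← analyticOrderAt_deriv_ge_iff (ha i) (h0 i),
      analyticOrderAt_congr (hj.mono fun t a => a.deriv)]
    exact ih j

section alg

variable {A : Type} [NormedRing A] [NormedAlgebra k A] [CompleteSpace A]

theorem ev_ball (X : A) : ∀ᶠ t : k in 𝓝 0, t • X ∈ Metric.eball (0 : A) (expSeries k A).radius :=
  ((by fun_prop : Continuous fun t : k => t • X).tendsto' 0 0 (zero_smul k X)).eventually
    (Metric.eball_mem_nhds _ (rad_pos _))

theorem exp_an' (X : A) : AnalyticAt k (fun t : k => exp (t • X)) 0 :=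
  (analyticAt_exp_of_mem_ball (𝕂 := k) _ (ev_ball X).self_of_nhds).comp (f := fun t : k => t • X)
    ((ContinuousLinearMap.toSpanSingleton k X).analyticAt 0)

theorem exp_der' (X : A) :
    ∀ᶠ t : k in 𝓝 0, HasStrictDerivAt (fun s : k => exp (s • X)) (exp (t • X) * X) t :=
  (ev_ball X).mono fun t a => hasStrictDerivAt_exp_smul_const_of_mem_ball X t a

theorem exp_inv' (X : A) : ∀ᶠ t : k in 𝓝 0, exp (t • X) * exp (t • -X) = 1 := by
  filter_upwards [ev_ball X, ev_ball (-X)] with t a b
  rw [← exp_add_of_commute_of_mem_ball ((Commute.refl X).neg_right.smul_left t |>.smul_right t) a b,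
    smul_neg, add_neg_cancel, exp_zero]

theorem exp_conj_der' (X Y : A) : ∀ᶠ t : k in 𝓝 0, HasDerivAt
    (fun s : k => exp (s • X) * Y * exp (s • -X)) (exp (t • X) * (X * Y - Y * X) * exp (t • -X)) t := by
  filter_upwards [ev_ball X, ev_ball (-X)] with t a b
  refine (((hasDerivAt_exp_smul_const_of_mem_ball X t a).mul_const Y).fun_mul
    (hasDerivAt_exp_smul_const_of_mem_ball' (-X) t b)).congr_deriv ?_
  noncomm_ring

end alg

section op

open scoped Matrix.Norms.Operator

omit [CharZero k] in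
theorem cpl (A : Type) [NormedRing A] [NormedAlgebra k A] [FiniteDimensional k A] : CompleteSpace A :=
  FiniteDimensional.complete k A

theorem exp_an (X : Mt n k) (i j : Fin n) : AnalyticAt k (fun t : k => exp (t • X) i j) 0 :=
  ((LinearMap.toContinuousLinearMap (entryLinearMap k k i j)).analyticAt _).comp
    (@exp_an' k _ _ _ _ _ _ (cpl (k := k) _) X)

theorem exp_der (X : Mt n k) :
    ∀ᶠ t : k in 𝓝 0, HasStrictDerivAt (fun s : k => exp (s • X)) (exp (t • X) * X) t :=
  @exp_der' k _ _ _ _ _ _ (cpl (k := k) _) X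

theorem exp_inv (X : Mt n k) : ∀ᶠ t : k in 𝓝 0, exp (t • X) * exp (t • -X) = 1 :=
  @exp_inv' k _ _ _ _ _ _ (cpl (k := k) _) X

theorem exp_conj_der (X Y : Mt n k) : ∀ᶠ t : k in 𝓝 0, HasDerivAt
    (fun s : k => exp (s • X) * Y * exp (s • -X)) (exp (t • X) * (X * Y - Y * X) * exp (t • -X)) t :=
  @exp_conj_der' k _ _ _ _ _ _ (cpl (k := k) _) X Y

theorem hd_mul (g : Mt n k) {γ : k → Mt n k} {X : Mt n k} {t : k} (h : HasDerivAt γ X t) :
    HasDerivAt (fun s => g * γ s) (g * X) t := h.const_mul g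

end op

open scoped Matrix.Norms.Elementwise

variable {G H N : Subgroup (GL (Fin n) k)} {𝔤 : Submodule k (Mt n k)} {F : Mt n k → k}

omit [CharZero k] [CompleteSpace k] in
theorem pf_an (hF : PF F) {c : k → Mt n k} (hc : ∀ i j, AnalyticAt k (fun t => c t i j) 0) :
    AnalyticAt k (fun t => F (c t)) 0 := by
  obtain ⟨p, hp⟩ := hF
  simp only [hp]
  clear hp
  induction p using MvPolynomial.induction_on with
  | C c => simpa only [ev_C] using analyticAt_const
  | add p q hp hq => simpa only [map_add] using hp.fun_add hq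
  | mul_X p ij hp =>
    obtain ⟨i, j⟩ := ij
    simpa only [map_mul, ev_X] using hp.fun_mul (hc i j)

omit [CharZero k] [CompleteSpace k] in
/-- the derivative of a polynomial function along a left invariant vector field -/
theorem pf_der (hF : PF F) (X : Mt n k) : ∃ F', PF F' ∧ ∀ (c : k → Mt n k) t,
    HasDerivAt c (c t * X) t → HasDerivAt (fun s => F (c s)) (F' (c t)) t := by
  obtain ⟨p, hp⟩ := hF
  simp only [hp]
  clear hp
  induction p using MvPolynomial.induction_on with
  | C a => exact ⟨_, PF.const 0, fun c t _ => by simpa only [ev_C] using hasDerivAt_const t a⟩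
  | add p q hp hq =>
    obtain ⟨A, a1, a2⟩ := hp
    obtain ⟨B, b1, b2⟩ := hq
    exact ⟨_, a1.add b1, fun c t h => by simpa only [map_add] using (a2 c t h).fun_add (b2 c t h)⟩
  | mul_X p ij hp =>
    obtain ⟨i, j⟩ := ij
    obtain ⟨A, a1, a2⟩ := hp
    exact ⟨_, (a1.mul (PF.entry i j)).add ((PF.of p).mul (PF.mulE PF.entry (pf_c X) i j)),
      fun c t h => by
        simpa only [map_mul, ev_X] using (a2 c t h).fun_mul
          (hasDerivAt_pi.1 (hasDerivAt_pi.1 h i) j)⟩

/-- **EXP.** the one parameter group of a tangent vector lies in the group -/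
theorem exp_mem (hc : ZCl (G : Set (GL (Fin n) k))) {X : Mt n k} (hX : X ∈ Tn G) :
    ∀ᶠ t : k in 𝓝 0, ∃ g ∈ G, (g : Mt n k) = exp (t • X) ∧
      ((g⁻¹ : GL (Fin n) k) : Mt n k) = exp (t • -X) := by
  obtain ⟨γ, a1, a2, a3⟩ := mem_Tn.1 hX
  have h := an_zero (ι := {F : Mt n k → k // PF F ∧ ∀ g ∈ G, F (g : GL (Fin n) k) = 0})
    (fun F t => F.1 (exp (t • X))) (fun F => pf_an F.2.1 (exp_an X))
    (fun F => by rw [zero_smul, exp_zero]; exact F.2.2 1 G.one_mem) fun F => by
      obtain ⟨F', b1, b2⟩ := pf_der F.2.1 X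
      refine ⟨⟨F', b1, fun g hg => ?_⟩, (exp_der X).mono fun t a => b2 _ t a.hasDerivAt⟩
      have := b2 (fun s => g * γ s) 0 (by simpa only [a2, mul_one] using hd_mul g a1.hasDerivAt)
      simp only [a2, mul_one] at this
      refine this.unique ((hasDerivAt_const (0 : k) (0 : k)).congr_of_eventuallyEq (a3.mono ?_))
      rintro s ⟨u, hu, e⟩
      exact (congrArg (fun x => F.1 (g * x)) e).symm.trans (F.2.2 _ (G.mul_mem hg hu))
  obtain ⟨s, hs⟩ := IsNoetherian.noetherian (van (G : Set (GL (Fin n) k)))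
  filter_upwards [exp_inv X, (eventually_all_finset s (p := fun p (t : k) => ev (exp (t • X)) p = 0)).2
    fun p hp => h ⟨_, PF.of p, mem_van.1 (hs.le (Submodule.subset_span hp))⟩] with t b1 b2
  refine ⟨⟨_, _, b1, mul_eq_one_comm.1 b1⟩, hc _ fun p hp => ?_, rfl, rfl⟩
  exact (Submodule.span_le (p := RingHom.ker (ev (exp (t • X))))).2 (fun q hq => b2 q hq) (hs.ge hp)

end Vale.Agent.P092A2
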