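import Mathlib.Analysis.Calculus.InverseFunctionTheorem.Deriv
import Mathlib.Analysis.Calculus.Deriv.Mul
import Mathlib.Analysis.Calculus.Deriv.Add
import Mathlib.Analysis.Normed.Field.Ultra
import Mathlib.Analysis.SpecificLimits.Normed
import Mathlib.Algebra.MvPolynomial.Funext
import Mathlib.Algebra.MvPolynomial.PDeriv
import Mathlib.Algebra.CharP.Lemmas
import Mathlib.Algebra.CharP.Reduced
import Mathlib.RingTheory.MvPolynomial.Basic
import Mathlib.LinearAlgebra.Basis.VectorSpace
import Mathlib.Topology.MetricSpace.Ultra.Basic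
import Mathlib.Topology.MetricSpace.ProperSpace

/-! Polynomials whose values are powers, over a local field of positive characteristic. -/

set_option linter.all false

open Set Filter Topology MvPolynomial Metric

noncomputable section

namespace Vale.Agent.P092A2

variable {l : Type*} [NontriviallyNormedField l] {σ : Type*}

/-- a polynomial which vanishes near a point is zero -/
theorem eq_zero_of_nhds [Finite σ] {P : MvPolynomial σ l} {s₀ : σ → l}
    (h : ∀ᶠ s in 𝓝 s₀, eval s P = 0) : P = 0 := by
  have := Fintype.ofFinite σ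
  obtain ⟨ε, hε, h⟩ := Metric.eventually_nhds_iff_ball.1 h
  refine funext_set (fun i => ball (s₀ i) ε)
    (fun i => infinite_of_mem_nhds _ (ball_mem_nhds _ hε)) fun x hx => ?_
  rw [map_zero]
  exact h x (by rwa [ball_pi _ hε])

theorem hasStrictDerivAt_eval [DecidableEq σ] (P : MvPolynomial σ l) (s : σ → l) (i : σ) :
    HasStrictDerivAt (fun t => eval (Function.update s i t) P) (eval s (pderiv i P)) (s i) := by
  induction P using MvPolynomial.induction_on with
  | C a => simpa using hasStrictDerivAt_const (s i) a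
  | add P Q hP hQ => simpa using hP.fun_add hQ
  | mul_X P j hP =>
    have : HasStrictDerivAt (fun t => Function.update s i t j) (eval s (pderiv i (X j))) (s i) := by
      by_cases e : j = i
      · subst e
        simp only [Function.update_self, pderiv_X_self, map_one]
        exact hasStrictDerivAt_id (s j)
      · simpa [e, pderiv_X_of_ne e] using hasStrictDerivAt_const (s i) (s j)
    have := hP.fun_mul this
    simp only [Function.update_eq_self] at this
    simpa only [map_mul, eval_X, pderiv_mul, map_add] using this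

theorem ultra_of_charP (p : ℕ) [hp : Fact p.Prime] [CharP l p] : IsUltrametricDist l := by
  refine IsUltrametricDist.isUltrametricDist_of_forall_norm_natCast_le_one fun n => ?_
  have h : ‖(n : l)‖ ^ p = ‖(n : l)‖ := by
    rw [← norm_pow]
    exact congrArg _ (map_natCast (frobenius l p) n)
  by_contra c
  have c := not_le.1 c
  have := pow_lt_pow_right₀ c hp.out.one_lt
  rw [pow_one, h] at this
  exact lt_irrefl _ this

/-- the set of the `p`-th powers has empty interior -/
theorem not_pow_nhds [ProperSpace l] (p : ℕ) [hp : Fact p.Prime] [CharP l p] (a : l) :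
    ¬ ∀ᶠ x in 𝓝 a, ∃ y, x = y ^ p := by
  intro h
  have := ultra_of_charP (l := l) p
  obtain ⟨b, rfl⟩ := h.self_of_nhds
  obtain ⟨t, t0, t1⟩ := NormedField.exists_norm_lt_one l
  have all : ∀ x : l, ∃ y, x = y ^ p := fun x => by
    have h1 : Tendsto (fun n : ℕ => b ^ p + (t ^ p) ^ n * x) atTop (𝓝 (b ^ p + 0 * x)) :=
      ((tendsto_pow_atTop_nhds_zero_of_norm_lt_one (by
        rw [norm_pow]; exact pow_lt_one₀ t0.le t1 hp.out.ne_zero)).mul_const x).const_add _
    rw [zero_mul, add_zero] at h1
    obtain ⟨n, y, hy⟩ := (h1.eventually h).exists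
    have : t ≠ 0 := norm_pos_iff.1 t0
    refine ⟨(y - b) / t ^ n, ?_⟩
    rw [div_pow, sub_pow_char, ← hy, ← pow_mul, ← pow_mul, mul_comm n p]
    field_simp
    ring
  have hc : IsCompact (ball (0 : l) 1) :=
    isCompact_of_isClosed_isBounded (IsUltrametricDist.isClosed_ball _ _) isBounded_ball
  obtain ⟨x, hx, hm⟩ := hc.exists_isMaxOn ⟨0, mem_ball_self one_pos⟩ continuous_norm.continuousOn
  obtain ⟨y, rfl⟩ := all x
  rw [mem_ball_zero_iff, norm_pow] at hx
  have y1 : ‖y‖ < 1 := lt_of_pow_lt_pow_left₀ p zero_le_one (by rwa [one_pow])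
  have h2 : ‖t‖ ≤ ‖y ^ p‖ := hm (mem_ball_zero_iff.2 t1)
  have h3 : ‖y‖ ≤ ‖y ^ p‖ := hm (mem_ball_zero_iff.2 y1)
  rw [norm_pow] at h2 h3
  have y0 : 0 < ‖y‖ := (norm_nonneg y).lt_of_ne fun c => by
    rw [← c, zero_pow hp.out.ne_zero] at h2
    exact absurd t0 h2.not_gt
  have := pow_lt_pow_right_of_lt_one₀ y0 y1 hp.out.one_lt
  rw [pow_one] at this
  exact absurd this h3.not_gt

/-- a polynomial whose values near a point are `p`-th powers is a `p`-th power -/
theorem pw [Finite σ] [ProperSpace l] (p : ℕ) [hp : Fact p.Prime] [CharP l p]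
    {P : MvPolynomial σ l} {s₀ : σ → l} (h : ∀ᶠ s in 𝓝 s₀, ∃ y, eval s P = y ^ p) :
    ∃ Q, P = Q ^ p := by
  classical
  have h1 : ∀ i, pderiv i P = 0 := fun i => by
    refine eq_zero_of_nhds (s₀ := s₀) (h.eventually_nhds.mono fun s hs => ?_)
    by_contra c
    have hd := hasStrictDerivAt_eval P s i
    have := hd.map_nhds_eq c
    refine not_pow_nhds p (eval (Function.update s i (s i)) P) ?_
    rw [← this, eventually_map]
    have hc : Tendsto (fun t => Function.update s i t) (𝓝 (s i)) (𝓝 s) := by
      have := (continuous_const (y := s)).update i continuous_id |>.tendsto (s i)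
      simpa using this
    exact hc.eventually hs
  have h2 : ∀ m ∈ P.support, ∃ m' : σ →₀ ℕ, p • m' = m := fun m hm => by
    refine ⟨m.mapRange (· / p) (by simp), Finsupp.ext fun i => ?_⟩
    rw [Finsupp.smul_apply, Finsupp.mapRange_apply, smul_eq_mul]
    refine Nat.mul_div_cancel' ?_
    rcases Nat.eq_zero_or_pos (m i) with e | e
    · rw [e]; exact dvd_zero _
    have := coeff_pderiv (i := i) P (m - Finsupp.single i 1)
    rw [h1, coeff_zero, tsub_add_cancel_of_le (Finsupp.single_le_iff.2 e)] at this
    have := (mul_eq_zero.1 this.symm).resolve_left (mem_support_iff.1 hm)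
    rw [← CharP.cast_eq_zero_iff l p, ← this, Finsupp.tsub_apply, Finsupp.single_eq_same,
      Nat.cast_sub e]
    simp
  have h3 : ∀ m, ∃ d, d ^ p = coeff m P := fun m => by
    let F := (frobenius l p).fieldRange
    by_contra c
    have : coeff m P ∉ Submodule.span F {(1 : l)} := fun c' => by
      obtain ⟨⟨_, a, rfl⟩, ha⟩ := Submodule.mem_span_singleton.1 c'
      exact c ⟨a, by rw [← ha]; exact (mul_one _).symm⟩
    obtain ⟨φ, hφ, hk⟩ := Submodule.exists_le_ker_of_notMem this
    have h0 : (∑ m ∈ P.support, monomial m (φ (coeff m P) : l)) = 0 := by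
      refine eq_zero_of_nhds (s₀ := s₀) (h.mono fun s ⟨y, hy⟩ => ?_)
      have : φ (eval s P) = 0 :=
        hk (Submodule.mem_span_singleton.2 ⟨⟨_, y, rfl⟩, by rw [hy]; exact mul_one _⟩)
      have := congrArg Subtype.val this
      rw [eval_eq, map_sum, AddSubmonoidClass.coe_finset_sum] at this
      rw [map_sum]
      refine (Finset.sum_congr rfl fun m hm => ?_).trans this
      obtain ⟨m', rfl⟩ := h2 m hm
      have e : ∏ i ∈ (p • m').support, s i ^ (p • m') i =
          frobenius l p (∏ i ∈ (p • m').support, s i ^ m' i) := by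
        rw [map_prod]
        exact Finset.prod_congr rfl fun i _ => by
          rw [frobenius_def, ← pow_mul, mul_comm]; rfl
      rw [eval_monomial, Finsupp.prod, e, mul_comm, mul_comm (coeff _ _)]
      exact (congrArg Subtype.val (φ.map_smul ⟨_, _, rfl⟩ _)).symm
    have := congrArg (coeff m) h0
    rw [coeff_sum, coeff_zero] at this
    simp only [coeff_monomial, Finset.sum_ite_eq'] at this
    split_ifs at this with e
    · exact hφ (Subtype.ext this)
    · exact hφ (by rw [notMem_support_iff.1 e, map_zero])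
  choose! μ hμ using h2
  choose d hd using h3
  refine ⟨∑ m ∈ P.support, monomial (μ m) (d m), ?_⟩
  rw [sum_pow_char]
  exact P.as_sum.trans (Finset.sum_congr rfl fun m hm => by rw [monomial_pow, hμ m hm, hd])

/-- the same for the powers of `p` -/
theorem pw_pow [Finite σ] [ProperSpace l] (p : ℕ) [hp : Fact p.Prime] [CharP l p] (e : ℕ)
    {P : MvPolynomial σ l} {s₀ : σ → l} (h : ∀ᶠ s in 𝓝 s₀, ∃ y, eval s P = y ^ p ^ e) :
    ∃ Q, P = Q ^ p ^ e := by
  induction e generalizing P with
  | zero => exact ⟨P, by simp⟩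
  | succ e ih =>
    obtain ⟨Q, rfl⟩ := pw p (h.mono fun s ⟨y, hy⟩ => ⟨y ^ p ^ e, by rw [hy, pow_succ, pow_mul]⟩)
    obtain ⟨R, rfl⟩ := ih (P := Q) (h.mono fun s ⟨y, hy⟩ => ⟨y, frobenius_inj l p (by
      rwa [map_pow, pow_succ, pow_mul] at hy)⟩)
    exact ⟨R, by rw [pow_succ p, pow_mul]⟩

end Vale.Agent.P092A2
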