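import Vale.Agent.P092A2.Ev

/-! Finite fibre implies algebraic; properness; Burnside's bound. -/

set_option linter.all false

open Set

noncomputable section

namespace Vale.Agent.P092A2

theorem exists_algHom_ker {K A : Type*} [Field K] [IsAlgClosed K] [CommRing A] [Algebra K A]
    [Algebra.FiniteType K A] (m : Ideal A) [m.IsMaximal] : ∃ χ : A →ₐ[K] K, RingHom.ker χ = m := by
  letI := Ideal.Quotient.field m
  have := finite_of_finite_type_of_isJacobsonRing K (A ⧸ m)
  let l : (A ⧸ m) →ₐ[K] K := IsAlgClosed.lift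
  refine ⟨l.comp (Ideal.Quotient.mkₐ K m), Ideal.ext fun a => ?_⟩
  rw [RingHom.mem_ker, AlgHom.comp_apply, map_eq_zero_iff l l.toRingHom.injective]
  exact Ideal.Quotient.eq_zero_iff_mem

/-- Nullstellensatz: an element killed by all points of a prime lies in it -/
theorem mem_of_points {K A : Type*} [Field K] [IsAlgClosed K] [CommRing A] [Algebra K A]
    [Algebra.FiniteType K A] {q : Ideal A} (hq : q.IsRadical) {a : A}
    (h : ∀ χ : A →ₐ[K] K, q ≤ RingHom.ker χ → χ a = 0) : a ∈ q := by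
  have : IsJacobsonRing A := isJacobsonRing_of_finiteType (A := K)
  rw [← IsJacobsonRing.out this hq, Ideal.jacobson, Ideal.mem_sInf]
  rintro m ⟨h1, h2⟩
  obtain ⟨χ, rfl⟩ := exists_algHom_ker (K := K) m
  exact h χ h1

theorem algebraic_of_finite_fibre {K A : Type*} [Field K] [IsAlgClosed K] [CommRing A] [IsDomain A]
    [Algebra K A] [Algebra.FiniteType K A] (B : Subalgebra K A) (χ₀ : A →ₐ[K] K)
    (h : {χ : A →ₐ[K] K | ∀ b ∈ B, χ b = χ₀ b}.Finite) (x : A) : IsAlgebraic B x := by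
  classical
  have : Algebra.FiniteType B A := .of_restrictScalars_finiteType K B A
  have h1 : ∀ χ : A →ₐ[K] K, ∃ a, χ ≠ χ₀ → χ a = 0 ∧ χ₀ a ≠ 0 := fun χ => by
    by_cases e : χ = χ₀
    · exact ⟨0, fun h => (h e).elim⟩
    obtain ⟨a, ha⟩ := DFunLike.ne_iff.1 e
    exact ⟨a - algebraMap K A (χ a), fun _ => ⟨by simp, by simpa [sub_eq_zero] using ha.symm⟩⟩
  choose a ha using h1
  let f := ∏ χ ∈ h.toFinset.erase χ₀, a χ
  have f0 : χ₀ f ≠ 0 := by
    rw [map_prod]
    exact Finset.prod_ne_zero_iff.2 fun χ hχ => (ha χ (Finset.ne_of_mem_erase hχ)).2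
  have hm : (RingHom.ker χ₀).IsMaximal :=
    RingHom.ker_isMaximal_of_surjective χ₀ fun c => ⟨algebraMap K A c, by simp⟩
  let q : PrimeSpectrum A := ⟨RingHom.ker χ₀, hm.isPrime⟩
  have h2 : Algebra.QuasiFiniteAt B q.asIdeal := by
    refine .of_isOpen_singleton_fiber q (isOpen_induced_iff.2
      ⟨_, (PrimeSpectrum.basicOpen f).2, Set.ext fun p => ⟨fun hp => ?_, fun hp => ?_⟩⟩)
    · refine Subtype.ext (PrimeSpectrum.ext (hm.eq_of_le p.1.2.ne_top fun y hy => ?_).symm)
      refine (p.1.2.mem_or_mem (mem_of_points (K := K) p.1.2.isRadical fun χ hχ => ?_)).resolve_right hp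
      rw [map_mul]
      by_cases e : χ = χ₀
      · rw [e, RingHom.mem_ker.1 hy, zero_mul]
      refine mul_eq_zero_of_right _ ?_
      rw [map_prod]
      refine Finset.prod_eq_zero (Finset.mem_erase.2 ⟨e, h.mem_toFinset.2 fun b hb => ?_⟩) (ha χ e).1
      have h3 : (⟨b, hb⟩ - algebraMap K B (χ₀ b) : B) ∈ (q.comap (algebraMap B A)).asIdeal := by
        simp [q, RingHom.mem_ker]
      rw [← show p.1.comap _ = _ from p.2] at h3
      simpa [RingHom.mem_ker, sub_eq_zero] using hχ h3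
    · rw [mem_singleton_iff.1 hp]; exact f0
  obtain ⟨r, h3, h4, h5⟩ := Algebra.zariskisMainProperty_iff.1
    (Algebra.ZariskisMainProperty.of_finiteType (R := B) q.asIdeal)
  obtain ⟨m, h6⟩ := h5 x
  exact IsAlgebraic.of_mul (mem_nonZeroDivisors_of_ne_zero (pow_ne_zero m
    fun e : r = 0 => h3 (e ▸ zero_mem _)))
    (h4.pow m).isAlgebraic h6.isAlgebraic

theorem exists_common_multiple {B A ι : Type*} [CommRing B] [IsDomain B] [CommRing A] [Algebra B A]
    [Fintype ι] {x : ι → A} (h : ∀ i, IsAlgebraic B (x i)) :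
    ∃ b : B, b ≠ 0 ∧ ∀ i, IsIntegral B (algebraMap B A b * x i) := by
  classical
  choose b h4 h5 using fun q => (h q).exists_integral_multiple
  refine ⟨∏ q, b q, Finset.prod_ne_zero_iff.2 fun q _ => h4 q, fun i => ?_⟩
  rw [← Algebra.smul_def, ← Finset.prod_erase_mul _ _ (Finset.mem_univ i), mul_smul]
  exact (h5 _).smul _

section Proper

variable {K Γ m n : Type*} [NormedField K] [IsAlgClosed K] [Group Γ] [Fintype m] [DecidableEq m]
  [Fintype n] [DecidableEq n] {S : Set Γ}

theorem mem_coef_iff {K Γ n : Type*} [Field K] (j : Γ → Matrix n n K) {f : Γ → K} : f ∈ coef j ↔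
    ∃ p : MvPolynomial (n × n) K, ∀ g, f g = MvPolynomial.eval (fun q => j g q.1 q.2) p := by
  rw [coef, Algebra.adjoin_range_eq_range_aeval]
  refine exists_congr fun p => ?_
  rw [eq_comm, funext_iff]
  refine forall_congr' fun g => Eq.congr_right ?_
  exact MvPolynomial.comp_aeval_apply _ (Pi.evalAlgHom K (fun _ => K) g) p

/-- a polynomial representation with finite kernel of a closed connected group is proper -/
theorem proper (j : Γ →* Matrix n n K) (ρ : Γ →* Matrix m m K)
    (hcl : ∀ x : Matrix n n K, (∀ p : MvPolynomial (n × n) K,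
      (∀ g, MvPolynomial.eval (fun q => j g q.1 q.2) p = 0) →
        MvPolynomial.eval (fun q => x q.1 q.2) p = 0) → ∃ g, j g = x)
    (hpr : ∀ a ∈ coef j, ∀ b ∈ coef j, a * b = 0 → a = 0 ∨ b = 0)
    (hρ : ∀ i k, (fun g => ρ g i k) ∈ coef j) (hker : {g | ρ g = 1}.Finite) (h1 : BdM S ρ)
    (h2 : BdM S fun g => ρ g⁻¹) : BdM S j := by
  classical
  have : Nontrivial (coef j) := ⟨0, 1, fun e => zero_ne_one (congrFun (congrArg Subtype.val e) 1)⟩
  have : NoZeroDivisors (coef j) := ⟨fun {a b} e =>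
    (hpr a a.2 b b.2 (congrArg Subtype.val e)).imp Subtype.ext Subtype.ext⟩
  have : IsDomain (coef j) := NoZeroDivisors.to_isDomain _
  have : Algebra.FiniteType K (coef j) :=
    (Subalgebra.fg_iff_finiteType _).1 (Subalgebra.fg_def.2 ⟨_, finite_range _, rfl⟩)
  let ev : Γ → (coef j →ₐ[K] K) := fun g => (Pi.evalAlgHom K (fun _ => K) g).comp (coef j).val
  let x : n × n → coef j := fun q => ⟨_, mem_coef j q.1 q.2⟩
  have hx : ∀ (χ : coef j →ₐ[K] K) p, χ (MvPolynomial.aeval x p) =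
      MvPolynomial.eval (fun q => χ (x q)) p := fun χ p => MvPolynomial.comp_aeval_apply x χ p
  have pts : ∀ χ : coef j →ₐ[K] K, ∃ g, χ = ev g := fun χ => by
    obtain ⟨g, hg⟩ := hcl (fun i k => χ (x (i, k))) fun p hp => by
      rw [← hx χ p, show MvPolynomial.aeval x p = 0 from
        Subtype.ext (funext fun g => (hx (ev g) p).trans (hp g)), map_zero]
    refine ⟨g, AlgHom.ext fun a => ?_⟩
    obtain ⟨p, hp⟩ := (mem_coef_iff j).1 a.2
    rw [show a = MvPolynomial.aeval x p from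
      Subtype.ext (funext fun g => (hp g).trans (hx (ev g) p).symm), hx, hx]
    exact congrArg (MvPolynomial.eval · p) (funext fun q => (congrFun₂ hg q.1 q.2).symm)
  let B : Subalgebra K (coef j) := (coef ρ).comap (coef j).val
  have h3 := algebraic_of_finite_fibre B (ev 1) ((hker.image ev).subset fun χ hχ => by
    obtain ⟨g, rfl⟩ := pts χ
    exact ⟨g, Matrix.ext fun i k => (hχ ⟨_, hρ i k⟩ (mem_coef ρ i k)).trans
      (congrFun₂ (map_one ρ) i k), rfl⟩)
  obtain ⟨b, h4, h5⟩ := exists_common_multiple fun q => h3 (x q)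
  exact proper_of ρ j (b := b.1.1) b.2 (fun e => h4 (Subtype.ext (Subtype.ext e)))
    (fun S hS i k => bd_of_integral (coef j).val.toRingHom
      (fun c => coef_le (A := bdAlg K S) hS c.2) (h5 (i, k))) h1 h2

end Proper

section Burnside

variable {K V : Type*} [Field K] [IsAlgClosed K] [AddCommGroup V] [Module K V] [FiniteDimensional K V]

/-- Burnside's theorem -/
theorem burnside (A : Subalgebra K (Module.End K V)) [Nontrivial V]
    (h : ∀ W : Submodule K V, (∀ a ∈ A, ∀ v ∈ W, a v ∈ W) → W = ⊥ ∨ W = ⊤) : A = ⊤ := by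
  have : IsSimpleModule A V := by
    refine isSimpleModule_iff_toSpanSingleton_surjective.2 ⟨‹_›, fun v hv w => ?_⟩
    let W : Submodule K V := A.toSubmodule.map (LinearMap.applyₗ v)
    have h1 : W = ⊤ := (h W fun a ha _ ⟨b, hb, e⟩ => ⟨a * b, A.mul_mem ha hb, e ▸ rfl⟩).resolve_left
      fun e => hv ((Submodule.eq_bot_iff _).1 e v ⟨1, A.one_mem, rfl⟩)
    obtain ⟨a, ha, e⟩ := h1.ge (Submodule.mem_top (x := w))
    exact ⟨⟨a, ha⟩, e⟩
  refine eq_top_iff.2 fun f _ => ?_
  let F : Module.End (Module.End A V) V :=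
    { toFun := f
      map_add' := f.map_add
      map_smul' := fun e v => by
        obtain ⟨c, rfl⟩ := (IsSimpleModule.algebraMap_end_bijective_of_isAlgClosed K).2 e
        exact f.map_smul c v }
  obtain ⟨s, hs⟩ := Module.Finite.fg_top (R := K) (M := V)
  obtain ⟨r, hr⟩ := jacobson_density F s
  rw [show f = r.1 from LinearMap.ext_on hs hr]
  exact r.2

end Burnside

section BL

variable {K Z m : Type*} [NormedField K] [IsAlgClosed K] [Monoid Z] [Fintype m] [DecidableEq m]

theorem span_eq_top (ρ : Z →* Matrix m m K)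
    (h : ∀ W : Submodule K (m → K), (∀ z, ∀ v ∈ W, (ρ z).mulVec v ∈ W) → W = ⊥ ∨ W = ⊤) :
    Submodule.span K (range ρ) = ⊤ := by
  rcases isEmpty_or_nonempty m with h0 | h0
  · exact Subsingleton.elim _ _
  let σ : Z →* Module.End K (m → K) := (Matrix.toLinAlgEquiv' (R := K) (n := m)).toMonoidHom.comp ρ
  have h1 := burnside (Algebra.adjoin K (range σ)) fun W hW =>
    h W fun z => hW _ (Algebra.subset_adjoin ⟨z, rfl⟩)
  have h2 := congrArg Subalgebra.toSubmodule h1
  rw [Algebra.adjoin_eq_span, ← MonoidHom.coe_mrange, Submonoid.closure_eq, MonoidHom.coe_mrange] at h2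
  refine eq_top_iff.2 fun a _ => ?_
  have h3 : Matrix.toLin' a ∈ (Submodule.span K (range ρ)).map Matrix.toLin'.toLinearMap := by
    rw [Submodule.map_span, ← range_comp]
    exact h2.ge trivial
  obtain ⟨b, hb, e⟩ := h3
  exact Matrix.toLin'.injective e ▸ hb

/-- traces control the entries of an irreducible representation -/
theorem entry_le (ρ : Z →* Matrix m m K) (h : Submodule.span K (range ρ) = ⊤) :
    ∃ (E : Finset Z) (C : ℝ), 0 < C ∧ ∀ z i k, ‖ρ z i k‖ ≤ C * ∑ e ∈ E, ‖(ρ (z * e)).trace‖ := by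
  classical
  have h1 : ∀ q : m × m, ∃ c : Z →₀ K, (c.sum fun e a => a • ρ e) = Matrix.single q.2 q.1 1 :=
    fun q => Finsupp.mem_span_range_iff_exists_finsupp.1 (h.ge trivial)
  choose c hc using h1
  obtain ⟨C, h2, h3⟩ := bd_unif (S := (Finset.univ.biUnion fun q => (c q).support : Finset Z))
    (f := fun q => c q) fun q => ((Finset.finite_toSet _).image fun e => ‖c q e‖).bddAbove.imp
      fun C hC e he => hC (mem_image_of_mem _ he)
  refine ⟨Finset.univ.biUnion fun q => (c q).support, C, h2, fun z i k => ?_⟩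
  have h4 : ρ z i k = ∑ e ∈ Finset.univ.biUnion fun q => (c q).support,
      c (i, k) e * (ρ (z * e)).trace := by
    have h5 := congrArg (fun a => (ρ z * a).trace) (hc (i, k))
    simp only [Matrix.trace_mul_single, MulOpposite.op_one, one_smul] at h5
    rw [← h5, Finsupp.sum_of_support_subset _ (Finset.subset_biUnion_of_mem
      (fun q => (c q).support) (Finset.mem_univ (i, k))) _ (by simp)]
    simp [Finset.mul_sum, Matrix.trace_sum]
  rw [h4, Finset.mul_sum]
  exact (norm_sum_le _ _).trans (Finset.sum_le_sum fun e he => (norm_mul_le _ _).trans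
    (mul_le_mul_of_nonneg_right (h3 _ e he) (norm_nonneg _)))

theorem norm_trace_le {a : Matrix m m K} {c : ℝ} (h : ∀ l, a.charpoly.IsRoot l → ‖l‖ ≤ c) :
    ‖a.trace‖ ≤ Fintype.card m * c := by
  rw [Matrix.trace_eq_sum_roots_charpoly]
  refine (norm_multiset_sum_le _).trans ((Multiset.sum_le_card_nsmul _ c fun x hx => ?_).trans_eq ?_)
  · obtain ⟨l, h1, rfl⟩ := Multiset.mem_map.1 hx
    exact h l (Polynomial.isRoot_of_mem_roots h1)
  · rw [Multiset.card_map, IsAlgClosed.card_roots_eq_natDegree, Matrix.charpoly_natDegree_eq_dim,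
      nsmul_eq_mul]

/-- Burnside's bound -/
theorem bl (ρ : Z →* Matrix m m K)
    (h : ∀ W : Submodule K (m → K), (∀ z, ∀ v ∈ W, (ρ z).mulVec v ∈ W) → W = ⊥ ∨ W = ⊤)
    {c : Z → ℝ} (h0 : ∀ z, 0 ≤ c z) (hc : ∀ z w, c (z * w) ≤ c z * c w)
    (he : ∀ z l, (ρ z).charpoly.IsRoot l → ‖l‖ ≤ c z) :
    ∃ C > 0, ∀ z i k, ‖ρ z i k‖ ≤ C * c z := by
  obtain ⟨E, C, h1, h2⟩ := entry_le ρ (span_eq_top ρ h)
  have h3 : 0 ≤ ∑ e ∈ E, Fintype.card m * c e :=
    Finset.sum_nonneg fun e _ => mul_nonneg (Nat.cast_nonneg _) (h0 e)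
  refine ⟨C * (∑ e ∈ E, Fintype.card m * c e + 1), by positivity, fun z i k => (h2 z i k).trans ?_⟩
  rw [mul_assoc]
  refine mul_le_mul_of_nonneg_left (le_trans ?_ (mul_le_mul_of_nonneg_right
    (le_add_of_nonneg_right zero_le_one) (h0 z))) h1.le
  rw [Finset.sum_mul]
  exact Finset.sum_le_sum fun e _ => (norm_trace_le (he _)).trans
    ((mul_le_mul_of_nonneg_left (hc z e) (Nat.cast_nonneg _)).trans_eq (by ring))

end BL

end Vale.Agent.P092A2
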